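import Vale.Agent.P211W98.Sph
import Vale.Agent.P211W98.LC
import Vale.Agent.P211.H555.Bridge
import Vale.Agent.P211W98.St2
import Mathlib.Analysis.InnerProductSpace.ProdL2
import Mathlib.Analysis.InnerProductSpace.Trace
import Mathlib.Analysis.InnerProductSpace.Calculus
import Mathlib.Analysis.Calculus.FDeriv.Bilinear
import Mathlib.Analysis.Calculus.Deriv.Inv

section

/-! The Gauss equation of an isometric immersion. -/

set_option maxSynthPendingDepth 3
set_option linter.unusedSectionVars false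

namespace Vale.Agent.N211

open scoped Manifold ContDiff Topology
open Bundle Filter VectorField Vale.Agent.P211 Vale.Agent.P211.NN

noncomputable section

variable {E : Type} [NormedAddCommGroup E] [NormedSpace ℝ E] [FiniteDimensional ℝ E]
  {N : Type} [MetricSpace N] [ChartedSpace E N] [IsManifold 𝓘(ℝ, E) ∞ N]
  {V W U : Type} [NormedAddCommGroup V] [NormedSpace ℝ V] [NormedAddCommGroup W] [NormedSpace ℝ W]
  [NormedAddCommGroup U] [NormedSpace ℝ U]

/-- smooth vector valued functions -/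
abbrev Smo (E : Type) [NormedAddCommGroup E] [NormedSpace ℝ E] [ChartedSpace E N] (F : N → V) :
    Prop := ContMDiff 𝓘(ℝ, E) 𝓘(ℝ, V) ∞ F

theorem Smo.md {F : N → V} (h : Smo E F) (p : N) : MDifferentiableAt 𝓘(ℝ, E) 𝓘(ℝ, V) F p :=
  (h p).mdifferentiableAt (by simp)

/-- derivative along a vector field -/
def D (X : VF E N) (F : N → V) (p : N) : V := mvfderiv 𝓘(ℝ, E) F p (X p)

theorem Smo.D {F : N → V} (h : Smo E F) (X : VF E N) : Smo E (D X F) := by
  have h1 : ContMDiff 𝓘(ℝ, E).tangent 𝓘(ℝ, V).tangent ∞ (tangentMap 𝓘(ℝ, E) 𝓘(ℝ, V) F) :=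
    h.contMDiff_tangentMap (by simp)
  have h2 := h1.comp X.contMDiff
  intro x
  have h3 := h2 x
  rw [Function.comp_def] at h3
  have h4 := (contMDiffAt_totalSpace.mp h3).2
  convert! h4 using 1
  ext y
  simp only [N211.D, mvfderiv, NormedSpace.fromTangentSpace, ContinuousLinearMap.comp_apply,
    ContinuousLinearEquiv.coe_coe, ContinuousLinearEquiv.coe_mk, tangentMap,
    trivializationAt_model_space_apply]
  rfl

theorem mv_lin (L : V →L[ℝ] W) {F : N → V} (h : Smo E F) (p : N) (v : TangentSpace 𝓘(ℝ, E) p) :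
    mvfderiv 𝓘(ℝ, E) (fun y => L (F y)) p v = L (mvfderiv 𝓘(ℝ, E) F p v) :=
  P211W.mv_comp L.hasFDerivAt (h.md p) v

theorem D_lin (L : V →L[ℝ] W) {F : N → V} (h : Smo E F) (X : VF E N) :
    D X (fun y => L (F y)) = fun y => L (D X F y) :=
  funext fun p => mv_lin L h p _

theorem Smo.lin (L : V →L[ℝ] W) {F : N → V} (h : Smo E F) : Smo E fun y => L (F y) :=
  L.contDiff.contMDiff.comp h

theorem Smo.bil (β : V →L[ℝ] W →L[ℝ] U) {F : N → V} {G : N → W} (hF : Smo E F) (hG : Smo E G) :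
    Smo E fun y => β (F y) (G y) :=
  β.isBoundedBilinearMap.contDiff.contMDiff.comp (hF.prodMk_space hG)

theorem D_bil (β : V →L[ℝ] W →L[ℝ] U) {F : N → V} {G : N → W} (hF : Smo E F) (hG : Smo E G)
    (X : VF E N) (p : N) :
    D X (fun y => β (F y) (G y)) p = β (D X F p) (G p) + β (F p) (D X G p) := by
  have h : Smo E fun y => (F y, G y) := hF.prodMk_space hG
  have h1 := P211W.mv_comp (f := fun y => (F y, G y))
    (β.isBoundedBilinearMap.hasFDerivAt (F p, G p)) (h.md p) (X p)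
  have h2 := mv_lin (ContinuousLinearMap.fst ℝ V W) h p (X p)
  have h3 := mv_lin (ContinuousLinearMap.snd ℝ V W) h p (X p)
  rw [IsBoundedBilinearMap.deriv_apply] at h1
  refine h1.trans ?_
  rw [add_comm]
  exact congrArg₂ (fun a b => β a (G p) + β (F p) b) h2.symm h3.symm

theorem D_const (c : V) (X : VF E N) : D X (fun _ : N => c) = fun _ => 0 := by
  funext p
  rw [D, mvfderiv_const]
  rfl

theorem D_add {F G : N → V} (hF : Smo E F) (hG : Smo E G) (X : VF E N) (p : N) :
    D X (fun y => F y + G y) p = D X F p + D X G p :=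
  congrArg (fun L => L (X p)) (mvfderiv_add (hF.md p) (hG.md p))

variable [RiemannianBundle fun p : N => TangentSpace 𝓘(ℝ, E) p]
  [IsContMDiffRiemannianBundle 𝓘(ℝ, E) ∞ E fun p : N => TangentSpace 𝓘(ℝ, E) p]
  {cov : CovariantDerivative 𝓘(ℝ, E) E (TangentSpace 𝓘(ℝ, E) : N → Type)} (hc : IsLC cov)

/-- covariant derivative of smooth fields -/
abbrev nb (X Y : VF E N) : VF E N := nabVF cov hc.smooth X Y

include hc in
theorem D_comm {F : N → V} (h : Smo E F) (X Y : VF E N) (p : N) :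
    mvfderiv 𝓘(ℝ, E) F p (mlieBracket 𝓘(ℝ, E) X Y p) = D X (D Y F) p - D Y (D X F) p := by
  refine (SeparatingDual.eq_iff_forall_dual_eq (R := ℝ)).2 fun L => ?_
  have h1 := mlie_fun hc X Y ⟨fun y => L (F y), h.lin L⟩ p
  have k : ∀ X Y : VF E N, DVF X (DVF Y ⟨fun y => L (F y), h.lin L⟩) p = L (D X (D Y F) p) := by
    intro X Y
    change D X (D Y fun y => L (F y)) p = _
    rw [D_lin L h, D_lin L (h.D Y)]
  rw [k, k] at h1
  rw [map_sub, ← h1, ← mv_lin L h]
  rfl

/-- the second fundamental form -/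
def II (F : N → V) (X Y : VF E N) (p : N) : V := D X (D Y F) p - D (nb hc X Y) F p

theorem II_symm {F : N → V} (h : Smo E F) (X Y : VF E N) (p : N) :
    II hc F X Y p = II hc F Y X p := by
  have h1 := D_comm hc h X Y p
  rw [← hc.torsion, map_sub] at h1
  unfold II
  rw [sub_eq_sub_iff_sub_eq_sub, ← h1]
  rfl

theorem II_lin (L : V →L[ℝ] W) {F : N → V} (h : Smo E F) (X Y : VF E N) (p : N) :
    II hc (fun y => L (F y)) X Y p = L (II hc F X Y p) := by
  unfold II
  rw [D_lin L h, D_lin L (h.D Y), D_lin L h, map_sub]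

/-- the consequences of a quadratic equation -/
theorem quad1 (β : V →L[ℝ] V →L[ℝ] W) (L : V →L[ℝ] W) (c : W) {F : N → V} (h : Smo E F)
    (hq : ∀ y, β (F y) (F y) = L (F y) + c) (Y : VF E N) (p : N) :
    β (D Y F p) (F p) + β (F p) (D Y F p) = L (D Y F p) := by
  rw [← D_bil β h h, funext hq, D_add (h.lin L) contMDiff_const, D_const, D_lin L h, add_zero]

theorem quad2 (β : V →L[ℝ] V →L[ℝ] W) (L : V →L[ℝ] W) (c : W) {F : N → V} (h : Smo E F)
    (hq : ∀ y, β (F y) (F y) = L (F y) + c) (X Y : VF E N) (p : N) :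
    β (II hc F X Y p) (F p) + β (F p) (II hc F X Y p) + β (D X F p) (D Y F p) +
      β (D Y F p) (D X F p) = L (II hc F X Y p) := by
  have h1 := congrFun (congrArg (D X) (funext (quad1 β L c h hq Y))) p
  rw [D_add ((h.D Y).bil β h) (h.bil β (h.D Y)), D_bil β (h.D Y) h, D_bil β h (h.D Y),
    D_lin L (h.D Y)] at h1
  beta_reduce at h1
  have h2 := quad1 β L c h hq (nb hc X Y) p
  unfold II
  simp only [map_sub, _root_.sub_apply]
  rw [← h1, ← h2]
  abel

section

variable {q : V →L[ℝ] V →L[ℝ] ℝ} (hs : ∀ a b, q a b = q b a) {F : N → V} (h : Smo E F)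
  (hg : ∀ (X Y : VF E N) (p : N), inner ℝ (X p) (Y p) = q (D X F p) (D Y F p))

include hs h hg

theorem II_skew (X Y Z : VF E N) (p : N) :
    q (II hc F X Y p) (D Z F p) = -q (II hc F X Z p) (D Y F p) := by
  have h1 := hc.metric X Y Z p
  rw [funext (hg Y Z)] at h1
  have h2 := (D_bil q (h.D Y) (h.D Z) X p).symm.trans h1
  have h3 := hg (nb hc X Y) Z p
  have h4 := hg Y (nb hc X Z) p
  change inner ℝ (cov Y p (X p)) (Z p) = _ at h3
  change inner ℝ (Y p) (cov Z p (X p)) = _ at h4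
  unfold II
  simp only [map_sub, _root_.sub_apply]
  rw [hs (D X (D Z F) p), hs (D (nb hc X Z) F p)]
  linarith

theorem II_normal (X Y Z : VF E N) (p : N) : q (II hc F X Y p) (D Z F p) = 0 := by
  have h1 := II_skew hc hs h hg X Y Z p
  have h2 := II_skew hc hs h hg Z X Y p
  have h3 := II_skew hc hs h hg Y Z X p
  rw [II_symm hc h X Z] at h1
  rw [II_symm hc h Z Y] at h2
  rw [II_symm hc h Y X] at h3
  linarith

theorem gauss (X Y Z T : VF E N) (p : N) : Rm cov X Y Z T p =
    q (II hc F Y Z p) (II hc F X T p) - q (II hc F X Z p) (II hc F Y T p) := by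
  have e : ∀ (A B : VF E N) (y : N), D A (D B F) y = II hc F A B y + D (nb hc A B) F y :=
    fun A B y => (sub_add_cancel _ _).symm
  have k1 : ∀ (A B : VF E N) (y : N),
      inner ℝ (nb hc A B y) (T y) = q (D A (D B F) y) (D T F y) := by
    intro A B y
    rw [hg, e A B, map_add, _root_.add_apply, II_normal hc hs h hg, zero_add]
  have k2 : ∀ A B : VF E N, inner ℝ (cov (nb hc B Z) p (A p)) (T p) =
      q (D A (D B (D Z F)) p) (D T F p) + q (II hc F B Z p) (II hc F A T p) := by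
    intro A B
    have h1 := hc.metric A (nb hc B Z) T p
    rw [funext (k1 B Z)] at h1
    have h2 := (D_bil q ((h.D Z).D B) (h.D T) A p).symm.trans h1
    have h3 := hg (nb hc B Z) (nb hc A T) p
    change inner ℝ (nb hc B Z p) (cov T p (A p)) = _ at h3
    rw [e B Z p, e A T p] at h2
    simp only [map_add, _root_.add_apply] at h2
    rw [II_normal hc hs h hg, hs (D (nb hc B Z) F p) (II hc F A T p), II_normal hc hs h hg] at h2
    linarith
  have k3 := k1 (nb hc X Y - nb hc Y X) Z p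
  have k4 : (nb hc X Y - nb hc Y X) p = mlieBracket 𝓘(ℝ, E) X Y p := congrFun (brk_coe hc X Y) p
  change inner ℝ (cov Z p ((nb hc X Y - nb hc Y X) p)) (T p) =
    q (mvfderiv 𝓘(ℝ, E) (D Z F) p ((nb hc X Y - nb hc Y X) p)) (D T F p) at k3
  rw [k4, D_comm hc (h.D Z), map_sub, _root_.sub_apply] at k3
  have k5 := k2 X Y
  have k6 := k2 Y X
  unfold Rm
  rw [inner_sub_left, inner_sub_left, k3]
  change inner ℝ (cov (nb hc Y Z) p (X p)) (T p) - inner ℝ (cov (nb hc X Z) p (Y p)) (T p) - _ = _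
  linarith

end

end

end Vale.Agent.N211

end

section

/-! The curvature of round spheres and of their products. -/

set_option maxSynthPendingDepth 3
set_option linter.unusedSectionVars false

namespace Vale.Agent.N211

open scoped Manifold ContDiff Topology
open Bundle Filter VectorField Vale.Agent.P211 Vale.Agent.P211.NN Vale.Agent.P211Y

noncomputable section

theorem exists_onb {ι T : Type} [Fintype ι] [NormedAddCommGroup T] [InnerProductSpace ℝ T]
    [FiniteDimensional ℝ T] (h : Module.finrank ℝ T = Fintype.card ι) {u : ι → T}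
    (hu : Orthonormal ℝ u) : ∃ b : OrthonormalBasis ι ℝ T, ∀ i, b i = u i := by
  obtain ⟨b, hb⟩ := Orthonormal.exists_orthonormalBasis_extension_of_card_eq (𝕜 := ℝ) h (v := u)
    (s := Set.univ) (hu.comp _ Subtype.val_injective)
  exact ⟨b, fun i => hb i (Set.mem_univ i)⟩

theorem parseval {ι T : Type} [Fintype ι] [NormedAddCommGroup T] [InnerProductSpace ℝ T]
    [FiniteDimensional ℝ T] (h : Module.finrank ℝ T = Fintype.card ι) {u : ι → T}
    (hu : Orthonormal ℝ u) (x y : T) : ∑ i, inner ℝ x (u i) * inner ℝ (u i) y = inner ℝ x y := by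
  obtain ⟨b, hb⟩ := exists_onb h hu
  simpa only [hb] using b.sum_inner_mul_inner x y

variable {E : Type} [NormedAddCommGroup E] [NormedSpace ℝ E] [FiniteDimensional ℝ E]
  {N : Type} [MetricSpace N] [ChartedSpace E N] [IsManifold 𝓘(ℝ, E) ∞ N]
  [RiemannianBundle fun p : N => TangentSpace 𝓘(ℝ, E) p]
  [IsContMDiffRiemannianBundle 𝓘(ℝ, E) ∞ E fun p : N => TangentSpace 𝓘(ℝ, E) p]
  {cov : CovariantDerivative 𝓘(ℝ, E) E (TangentSpace 𝓘(ℝ, E) : N → Type)}

/-- positive curvature at a point -/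
def Pos (cov : CovariantDerivative 𝓘(ℝ, E) E (TangentSpace 𝓘(ℝ, E) : N → Type)) (p : N) : Prop :=
  ∀ X Y : SmoothField E N, LinearIndependent ℝ ![X p, Y p] → 0 < Rm cov X Y Y X p

/-- the curvature of a space form or a complex space form -/
def KP (cov : CovariantDerivative 𝓘(ℝ, E) E (TangentSpace 𝓘(ℝ, E) : N → Type)) (κ s : ℝ) : Prop :=
  ∀ p : N, ∃ J : TangentSpace 𝓘(ℝ, E) p → TangentSpace 𝓘(ℝ, E) p,
    (∀ v w, inner ℝ (J v) (J w) = s * inner ℝ v w) ∧ (∀ v, inner ℝ (J v) v = 0) ∧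
    ∀ X Y Z : VF E N, Rm cov X Y Z X p = κ * (inner ℝ (X p) (X p) * inner ℝ (Y p) (Z p) -
      inner ℝ (X p) (Y p) * inner ℝ (X p) (Z p) +
      3 * (inner ℝ (X p) (J (Y p)) * inner ℝ (X p) (J (Z p))))

theorem parsevalT (hdim : Module.finrank ℝ E = 4) {p : N} {F : Fin 4 → SmoothField E N}
    (hF : OrthonormalAt F p) (x y : TangentSpace 𝓘(ℝ, E) p) :
    ∑ i, inner ℝ (F i p) x * inner ℝ (F i p) y = inner ℝ x y := by
  have : FiniteDimensional ℝ (TangentSpace 𝓘(ℝ, E) p) := inferInstanceAs (FiniteDimensional ℝ E)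
  rw [← parseval (ι := Fin 4) (T := TangentSpace 𝓘(ℝ, E) p) hdim hF x y]
  simp only [real_inner_comm]

theorem KP.sec {κ s : ℝ} (h : KP cov κ s) (hκ : 0 ≤ κ) : SecNonneg cov := by
  intro p X Y
  obtain ⟨J, -, -, h3⟩ := h p
  rw [h3]
  have h4 := real_inner_mul_inner_self_le (X p) (Y p)
  exact mul_nonneg hκ (by nlinarith [mul_self_nonneg (inner ℝ (X p) (J (Y p)))])

theorem KP.pos {κ s : ℝ} (h : KP cov κ s) (hκ : 0 < κ) (p : N) : Pos cov p := by
  intro X Y hXY
  obtain ⟨J, -, -, h3⟩ := h p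
  rw [h3]
  have h4 : inner ℝ (X p) (Y p) * inner ℝ (X p) (Y p) <
      inner ℝ (X p) (X p) * inner ℝ (Y p) (Y p) := by
    refine lt_of_le_of_ne (real_inner_mul_inner_self_le _ _) fun e => ?_
    have h5 : X p ≠ 0 := hXY.ne_zero 0
    have h6 := (LinearIndependent.pair_iff' h5).1 hXY
      (inner ℝ (X p) (Y p) / inner ℝ (X p) (X p))
    have h7 : inner ℝ (X p) (X p) ≠ 0 := inner_self_ne_zero.2 h5
    refine h6 (sub_eq_zero.1 (inner_self_eq_zero (𝕜 := ℝ).1 ?_))
    simp only [inner_sub_left, inner_sub_right, real_inner_smul_left, real_inner_smul_right,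
      real_inner_comm (X p) (Y p)]
    field_simp
    linarith
  exact mul_pos hκ (by nlinarith [mul_self_nonneg (inner ℝ (X p) (J (Y p)))])

theorem KP.ricci (hdim : Module.finrank ℝ E = 4) {κ s : ℝ} (h : KP cov κ s) :
    RicciEq cov fun _ => κ * (3 + 3 * s) := by
  intro p F hF Y Z
  obtain ⟨J, h1, -, h3⟩ := h p
  have h4 : ∀ i, inner ℝ (F i p) (F i p) = 1 := fun i => by
    simpa using orthonormal_iff_ite.1 hF i i
  simp only [h3, h4]
  rw [← Finset.mul_sum, Finset.sum_add_distrib, Finset.sum_sub_distrib, parsevalT hdim hF,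
    ← Finset.mul_sum _ _ 3, parsevalT hdim hF, h1]
  simp
  ring

theorem KP.ne [Nonempty N] (hdim : Module.finrank ℝ E = 4) {κ κ' : ℝ} (h : KP cov κ 0)
    (h' : KP cov κ' 1) : κ = 4 * κ' := by
  obtain ⟨p⟩ := ‹Nonempty N›
  obtain ⟨J, h1, -, h3⟩ := h p
  obtain ⟨J', k1, k2, k3⟩ := h' p
  have : Nontrivial (TangentSpace 𝓘(ℝ, E) p) :=
    Module.nontrivial_of_finrank_pos (R := ℝ) (M := E) (by omega)
  obtain ⟨v, hv⟩ := exists_norm_eq (TangentSpace 𝓘(ℝ, E) p) zero_le_one
  have hv' : inner ℝ v v = 1 := by rw [real_inner_self_eq_norm_sq, hv, one_pow]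
  obtain ⟨Y, hY⟩ := exists_ext p v
  obtain ⟨X, hX⟩ := exists_ext p (J' v)
  have h4 : J v = 0 := inner_self_eq_zero (𝕜 := ℝ).1 (by rw [h1, zero_mul])
  have h5 := (h3 X Y Y).symm.trans (k3 X Y Y)
  rw [hX, hY, h4, k1, k2, hv', inner_zero_right] at h5
  linarith

/-- the scalar product as a bilinear map -/
abbrev ipL (V : Type) [NormedAddCommGroup V] [InnerProductSpace ℝ V] : V →L[ℝ] V →L[ℝ] ℝ :=
  innerSL ℝ

section

variable {V : Type} [NormedAddCommGroup V] [InnerProductSpace ℝ V] {A : N → V} (hA : Smo E A)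
  (a1 : ∀ y, ‖A y‖ = 1)

include a1 in
theorem unit0 (y : N) : ipL V (A y) (A y) = (0 : V →L[ℝ] ℝ) (A y) + 1 := by
  change inner ℝ (A y) (A y) = 0 + 1
  rw [real_inner_self_eq_norm_sq, a1, one_pow, zero_add]

include hA a1

theorem unit1 (X : VF E N) (p : N) : inner ℝ (D X A p) (A p) = 0 := by
  have h := quad1 (ipL V) 0 1 hA (unit0 a1) X p
  change inner ℝ _ _ + inner ℝ _ _ = 0 at h
  rw [real_inner_comm (D X A p)] at h
  linarith

theorem unit2 (hc : IsLC cov) (X Y : VF E N) (p : N) :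
    inner ℝ (II hc A X Y p) (A p) = -inner ℝ (D X A p) (D Y A p) := by
  have h := quad2 hc (ipL V) 0 1 hA (unit0 a1) X Y p
  change inner ℝ _ _ + inner ℝ _ _ + inner ℝ _ _ + inner ℝ _ _ = 0 at h
  rw [real_inner_comm (II hc A X Y p), real_inner_comm (D X A p)] at h
  linarith

end

variable [PreconnectedSpace N] (hdim : Module.finrank ℝ E = 4) (hc : IsLC cov) {r : ℝ} (hr : 0 < r)

section

variable {V ι : Type} [NormedAddCommGroup V] [InnerProductSpace ℝ V] [FiniteDimensional ℝ V]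
  [Fintype ι] [DecidableEq ι] {F : N → V} (hF : Smo E F)
  (hg : ∀ (X Y : VF E N) (p : N), inner ℝ (X p) (Y p) = r ^ 2 * inner ℝ (D X F p) (D Y F p))
  (hV : Module.finrank ℝ V = 4 + Fintype.card ι) {p : N} {n : ι → V} (hn : Orthonormal ℝ n)
  (hn' : ∀ (X : VF E N) j, inner ℝ (D X F p) (n j) = 0)

include hg hn hn' in
theorem frame_on {B : Fin 4 → SmoothField E N} (hB : OrthonormalAt B p) :
    Orthonormal ℝ (Sum.elim (fun i => r • D (B i) F p) n) := by
  rw [orthonormal_iff_ite]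
  rintro (i | i) (j | j)
  · have h := orthonormal_iff_ite.1 hB i j
    rw [hg] at h
    simp only [Sum.elim_inl, real_inner_smul_left, real_inner_smul_right, Sum.inl.injEq, ← h]
    ring
  · simp [real_inner_smul_left, hn']
  · simp [real_inner_smul_right, real_inner_comm (D (B j) F p), hn']
  · simpa using orthonormal_iff_ite.1 hn i j

include hg hV hn hn' in
theorem frame_parseval {B : Fin 4 → SmoothField E N} (hB : OrthonormalAt B p) (x y : V) :
    r ^ 2 * ∑ i, inner ℝ x (D (B i) F p) * inner ℝ (D (B i) F p) y =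
      inner ℝ x y - ∑ j, inner ℝ x (n j) * inner ℝ (n j) y := by
  rw [← parseval (by simpa using hV) (frame_on hg hn hn' hB) x y, Fintype.sum_sum_type,
    Finset.mul_sum]
  simp only [Sum.elim_inl, Sum.elim_inr, real_inner_smul_left, real_inner_smul_right,
    add_sub_cancel_right]
  exact Finset.sum_congr rfl fun i _ => by ring

include hdim hr hF hg hV hn hn' in
theorem gauss_frame (X Y Z T : VF E N) : Rm cov X Y Z T p = r ^ 2 *
    ∑ j, (inner ℝ (II hc F Y Z p) (n j) * inner ℝ (II hc F X T p) (n j) -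
      inner ℝ (II hc F X Z p) (n j) * inner ℝ (II hc F Y T p) (n j)) := by
  have hs : ∀ a b : V, (r ^ 2 • ipL V) a b = (r ^ 2 • ipL V) b a := fun a b => by
    change r ^ 2 * inner ℝ a b = r ^ 2 * inner ℝ b a
    rw [real_inner_comm]
  obtain ⟨B, hB⟩ := H555.exists_local_frame hc hdim p
  have k : ∀ (X Y : VF E N) (y : V), inner ℝ (II hc F X Y p) y =
      ∑ j, inner ℝ (II hc F X Y p) (n j) * inner ℝ y (n j) := by
    intro X Y y
    have h1 := frame_parseval hg hV hn hn' hB.self_of_nhds (II hc F X Y p) y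
    have h2 : ∀ i, inner ℝ (II hc F X Y p) (D (B i) F p) = 0 := fun i =>
      (mul_eq_zero.1 (II_normal hc hs hF hg X Y (B i) p)).resolve_left (by positivity)
    simp only [h2, zero_mul, Finset.sum_const_zero, mul_zero] at h1
    rw [sub_eq_zero.1 h1.symm]
    simp only [real_inner_comm y]
  rw [gauss hc hs hF hg X Y Z T p]
  change r ^ 2 * inner ℝ _ _ - r ^ 2 * inner ℝ _ _ = _
  rw [k Y Z, k X Z, ← mul_sub, Finset.sum_sub_distrib]

end

include hdim hc hr in
theorem kp_sphere {V : Type} [NormedAddCommGroup V] [InnerProductSpace ℝ V]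
    [FiniteDimensional ℝ V] (hV : Module.finrank ℝ V = 5) {A : N → V} (hA : Smo E A)
    (a1 : ∀ y, ‖A y‖ = 1)
    (hg : ∀ (x : N) (v w : TangentSpace 𝓘(ℝ, E) x), inner ℝ v w = r ^ 2 * pb E N A x v w) :
    KP cov (r ^ 2)⁻¹ 0 := by
  intro p
  refine ⟨fun _ => 0, fun v w => by simp, fun v => by simp, fun X Y Z => ?_⟩
  have hg' : ∀ (X Y : VF E N) (p : N),
      inner ℝ (X p) (Y p) = r ^ 2 * inner ℝ (D X A p) (D Y A p) := fun X Y p => hg p _ _
  rw [gauss_frame hdim hc hr hA hg' (ι := Unit) (by simpa using hV) (n := fun _ => A p)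
    (by simp [a1]) (fun X _ => unit1 hA a1 X p)]
  simp only [unit2 hA a1 hc, hg', real_inner_comm (D X A p) (D Y A p), inner_zero_right,
    Finset.univ_unique, Finset.sum_singleton]
  field_simp
  ring

section prod

/-- three-space -/
abbrev V3 : Type := EuclideanSpace ℝ (Fin 3)

/-- the immersion of a product -/
def FF (A B : N → V3) (y : N) : WithLp 2 (V3 × V3) := WithLp.toLp 2 (A y, B y)

/-- the normal vectors -/
def nn (A B : N → V3) (p : N) : Fin 2 → WithLp 2 (V3 × V3) :=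
  ![WithLp.toLp 2 (A p, 0), WithLp.toLp 2 (0, B p)]

theorem rank6 : Module.finrank ℝ (WithLp 2 (V3 × V3)) = 4 + Fintype.card (Fin 2) := by
  rw [(WithLp.linearEquiv 2 ℝ (V3 × V3)).finrank_eq]
  simp

theorem trace2 {c : ℝ} (u : Fin 4 → V3) (a : V3) (ha : ‖a‖ = 1) (h : ∀ x y : V3,
    c * ∑ i, inner ℝ x (u i) * inner ℝ (u i) y = inner ℝ x y - inner ℝ x a * inner ℝ a y) :
    c * ∑ i, inner ℝ (u i) (u i) = 2 := by
  let b := EuclideanSpace.basisFun (Fin 3) ℝ
  have h1 : ∑ i, inner ℝ (u i) (u i) = ∑ k, ∑ i, inner ℝ (b k) (u i) * inner ℝ (u i) (b k) := by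
    rw [Finset.sum_comm]
    exact Finset.sum_congr rfl fun i _ => by
      rw [← b.sum_inner_mul_inner]
      exact Finset.sum_congr rfl fun k _ => mul_comm _ _
  have h2 : ∑ k, inner ℝ (b k) a * inner ℝ a (b k) = 1 := by
    have h3 : inner ℝ a a = 1 := by rw [real_inner_self_eq_norm_sq, ha, one_pow]
    rw [← h3, ← b.sum_inner_mul_inner]
    exact Finset.sum_congr rfl fun k _ => mul_comm _ _
  rw [h1, Finset.mul_sum]
  simp only [h, Finset.sum_sub_distrib, h2, real_inner_self_eq_norm_sq, b.orthonormal.1]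
  norm_num

theorem exists_perp {a : V3} (ha : ‖a‖ = 1) : ∃ e : V3, ‖e‖ = 1 ∧ inner ℝ a e = 0 := by
  obtain ⟨b, hb⟩ := Orthonormal.exists_orthonormalBasis_extension_of_card_eq (𝕜 := ℝ) (E := V3)
    (ι := Fin 3) (by simp) (v := fun _ => a) (s := {0}) (by simp [Set.domRestrict, ha])
  exact ⟨b 1, b.orthonormal.1 1, by rw [← hb 0 rfl]; exact b.orthonormal.2 (by decide)⟩

variable {A B : N → V3} (hA : Smo E A) (hB : Smo E B) (a1 : ∀ y, ‖A y‖ = 1) (b1 : ∀ y, ‖B y‖ = 1)
  (hg : ∀ (x : N) (v w : TangentSpace 𝓘(ℝ, E) x),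
    inner ℝ v w = r ^ 2 * pb E N A x v w + r ^ 2 * pb E N B x v w)

include a1 b1 in
theorem nn_on (p : N) : Orthonormal ℝ (nn A B p) := by
  rw [orthonormal_iff_ite]
  intro i j
  fin_cases i <;> fin_cases j <;> simp [nn, a1, b1]

include hA hB

theorem FF_smo : Smo E (FF A B) := Smo.lin
  (WithLp.prodContinuousLinearEquiv 2 ℝ V3 V3).symm.toContinuousLinearMap (hA.prodMk_space hB)

theorem FF_d1 (X : VF E N) (y : N) : (D X (FF A B) y).fst = D X A y :=
  (congrFun (D_lin (WithLp.fstL 2 ℝ V3 V3) (FF_smo hA hB) X) y).symm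

theorem FF_d2 (X : VF E N) (y : N) : (D X (FF A B) y).snd = D X B y :=
  (congrFun (D_lin (WithLp.sndL 2 ℝ V3 V3) (FF_smo hA hB) X) y).symm

theorem FF_i1 (X Y : VF E N) (y : N) : (II hc (FF A B) X Y y).fst = II hc A X Y y :=
  (II_lin hc (WithLp.fstL 2 ℝ V3 V3) (FF_smo hA hB) X Y y).symm

theorem FF_i2 (X Y : VF E N) (y : N) : (II hc (FF A B) X Y y).snd = II hc B X Y y :=
  (II_lin hc (WithLp.sndL 2 ℝ V3 V3) (FF_smo hA hB) X Y y).symm

include hg in
theorem FF_g (X Y : VF E N) (p : N) :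
    inner ℝ (X p) (Y p) = r ^ 2 * inner ℝ (D X (FF A B) p) (D Y (FF A B) p) := by
  rw [hg, WithLp.prod_inner_apply, mul_add]
  exact congrArg₂ (fun s t => r ^ 2 * s + r ^ 2 * t)
    (congrArg₂ _ (FF_d1 hA hB X p).symm (FF_d1 hA hB Y p).symm)
    (congrArg₂ _ (FF_d2 hA hB X p).symm (FF_d2 hA hB Y p).symm)

include a1 b1

theorem nn_perp (p : N) (X : VF E N) (j : Fin 2) : inner ℝ (D X (FF A B) p) (nn A B p j) = 0 := by
  fin_cases j
  · simp [nn, FF_d1 hA hB, unit1 hA a1]
  · simp [nn, FF_d2 hA hB, unit1 hB b1]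

include hg

theorem par1 {p : N} {G : Fin 4 → SmoothField E N} (hG : OrthonormalAt G p) (x y : V3) :
    r ^ 2 * ∑ i, inner ℝ x (D (G i) A p) * inner ℝ (D (G i) A p) y =
      inner ℝ x y - inner ℝ x (A p) * inner ℝ (A p) y := by
  simpa [nn, FF_d1 hA hB] using frame_parseval (FF_g hA hB hg) rank6 (nn_on a1 b1 p)
    (nn_perp hA hB a1 b1 p) hG (WithLp.toLp 2 (x, 0)) (WithLp.toLp 2 (y, 0))

theorem par2 {p : N} {G : Fin 4 → SmoothField E N} (hG : OrthonormalAt G p) (x y : V3) :
    r ^ 2 * ∑ i, inner ℝ x (D (G i) B p) * inner ℝ (D (G i) B p) y =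
      inner ℝ x y - inner ℝ x (B p) * inner ℝ (B p) y := by
  simpa [nn, FF_d2 hA hB] using frame_parseval (FF_g hA hB hg) rank6 (nn_on a1 b1 p)
    (nn_perp hA hB a1 b1 p) hG (WithLp.toLp 2 (0, x)) (WithLp.toLp 2 (0, y))

include hdim hc hr

theorem prod_Rm (X Y Z T : VF E N) (p : N) : Rm cov X Y Z T p = r ^ 2 *
    (inner ℝ (D Y A p) (D Z A p) * inner ℝ (D X A p) (D T A p) -
      inner ℝ (D X A p) (D Z A p) * inner ℝ (D Y A p) (D T A p) +
    (inner ℝ (D Y B p) (D Z B p) * inner ℝ (D X B p) (D T B p) -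
      inner ℝ (D X B p) (D Z B p) * inner ℝ (D Y B p) (D T B p))) := by
  rw [gauss_frame hdim hc hr (FF_smo hA hB) (FF_g hA hB hg) rank6 (nn_on a1 b1 p)
    (nn_perp hA hB a1 b1 p), Fin.sum_univ_two]
  simp [nn, FF_i1 hc hA hB, FF_i2 hc hA hB, unit2 hA a1 hc, unit2 hB b1 hc]

theorem prod_sec : SecNonneg cov := by
  intro p X Y
  rw [prod_Rm hdim hc hr hA hB a1 b1 hg, real_inner_comm (D X A p) (D Y A p),
    real_inner_comm (D X B p) (D Y B p)]
  have h1 := real_inner_mul_inner_self_le (D X A p) (D Y A p)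
  have h2 := real_inner_mul_inner_self_le (D X B p) (D Y B p)
  exact mul_nonneg (by positivity) (by linarith)

theorem prod_ricci : RicciEq cov fun _ => (r ^ 2)⁻¹ := by
  intro p G hG Y Z
  have h1 := trace2 _ _ (a1 p) (par1 hA hB a1 b1 hg hG)
  have h2 := trace2 _ _ (b1 p) (par2 hA hB a1 b1 hg hG)
  have h3 := par1 hA hB a1 b1 hg hG (D Y A p) (D Z A p)
  have h4 := par2 hA hB a1 b1 hg hG (D Y B p) (D Z B p)
  rw [unit1 hA a1] at h3
  rw [unit1 hB b1] at h4
  have h5 : inner ℝ (Y p) (Z p) =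
      r ^ 2 * inner ℝ (D Y A p) (D Z A p) + r ^ 2 * inner ℝ (D Y B p) (D Z B p) := hg p _ _
  simp only [prod_Rm hdim hc hr hA hB a1 b1 hg]
  rw [← Finset.mul_sum, Finset.sum_add_distrib, Finset.sum_sub_distrib, Finset.sum_sub_distrib,
    ← Finset.mul_sum, ← Finset.mul_sum, h5]
  simp only [mul_comm (inner ℝ (D (G _) A p) (D Z A p)),
    mul_comm (inner ℝ (D (G _) B p) (D Z B p))]
  field_simp
  linear_combination inner ℝ (D Y A p) (D Z A p) * h1 + inner ℝ (D Y B p) (D Z B p) * h2 - h3 - h4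

theorem prod_not_pos (p : N) : ¬Pos cov p := by
  intro hp
  obtain ⟨G, hG⟩ := H555.exists_local_frame hc hdim p
  obtain ⟨b, hb⟩ := exists_onb (by simpa using rank6)
    (frame_on (FF_g hA hB hg) (nn_on a1 b1 p) (nn_perp hA hB a1 b1 p) hG.self_of_nhds)
  have ex : ∀ w : WithLp 2 (V3 × V3), (∀ j, inner ℝ (nn A B p j) w = 0) →
      ∃ X : VF E N, r • D X (FF A B) p = w := by
    intro w hw
    obtain ⟨X, hX⟩ := exists_ext p (∑ i, inner ℝ (b (Sum.inl i)) w • G i p)
    refine ⟨X, ?_⟩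
    rw [← b.sum_repr' w, Fintype.sum_sum_type, D, hX, map_sum, Finset.smul_sum]
    simp only [hb, Sum.elim_inr, hw, zero_smul, Finset.sum_const_zero, add_zero, map_smul,
      Sum.elim_inl]
    exact Finset.sum_congr rfl fun i _ => smul_comm _ _ _
  obtain ⟨e, e1, e2⟩ := exists_perp (a1 p)
  obtain ⟨f, f1, f2⟩ := exists_perp (b1 p)
  obtain ⟨X, hX⟩ := ex (WithLp.toLp 2 (e, 0)) fun j => by fin_cases j <;> simp [nn, e2]
  obtain ⟨Y, hY⟩ := ex (WithLp.toLp 2 (0, f)) fun j => by fin_cases j <;> simp [nn, f2]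
  have g : ∀ X Y : VF E N,
      inner ℝ (X p) (Y p) = inner ℝ (r • D X (FF A B) p) (r • D Y (FF A B) p) := fun X Y => by
    rw [FF_g hA hB hg, real_inner_smul_left, real_inner_smul_right]
    ring
  have o : Orthonormal ℝ ![X p, Y p] := by
    rw [orthonormal_iff_ite]
    intro i j
    fin_cases i <;> fin_cases j
    · simpa [hX, e1] using g X X
    · simpa [hX, hY] using g X Y
    · simpa [hX, hY] using g Y X
    · simpa [hY, f1] using g Y Y
  have x0 : D X B p = 0 := by simpa [FF_d2 hA hB, hr.ne'] using congrArg WithLp.snd hX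
  have y0 : D Y A p = 0 := by simpa [FF_d1 hA hB, hr.ne'] using congrArg WithLp.fst hY
  have h := hp X Y o.linearIndependent
  rw [prod_Rm hdim hc hr hA hB a1 b1 hg, x0, y0] at h
  simp at h

end prod

end

end Vale.Agent.N211

end

section

/-! Rank one operators and the projector onto a line. -/

set_option linter.unusedSectionVars false
set_option linter.unusedSimpArgs false

namespace Vale.Agent.N211

open RCLike InnerProductSpace
open scoped ContDiff

noncomputable section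

theorem bil_smooth {V W : Type} [NormedAddCommGroup V] [NormedSpace ℝ V] [NormedAddCommGroup W]
    [NormedSpace ℝ W] (β : V →L[ℝ] V →L[ℝ] W) : ContDiff ℝ ∞ fun z : V => β z z :=
  β.contDiff.clm_apply contDiff_id

theorem bil_deriv {V W : Type} [NormedAddCommGroup V] [NormedSpace ℝ V] [NormedAddCommGroup W]
    [NormedSpace ℝ W] (β : V →L[ℝ] V →L[ℝ] W) (t : W →L[ℝ] ℝ) {z : V} (h0 : t (β z z) = 1) :
    ∃ L : V →L[ℝ] W, HasFDerivAt (fun z => (t (β z z))⁻¹ • β z z) L z ∧
      ∀ v, L v = β v z + β z v - (t (β v z) + t (β z v)) • β z z := by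
  have h1 := β.hasFDerivAt_of_bilinear (hasFDerivAt_id z) (hasFDerivAt_id z)
  have h2 := (hasDerivAt_inv (x := t (β z z)) (by rw [h0]; exact one_ne_zero)).comp_hasFDerivAt
    z (t.hasFDerivAt.comp z h1)
  refine ⟨_, h2.smul h1, fun v => ?_⟩
  simp [h0]
  module

variable (k : Type) [RCLike k] {V : Type} [NormedAddCommGroup V] [InnerProductSpace k V]
  [NormedSpace ℝ V] [IsScalarTower ℝ k V] [FiniteDimensional k V]

theorem inner_rl (c : ℝ) (a b : V) : inner k (c • a) b = (c : k) * inner k a b := by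
  rw [real_smul_eq_coe_smul (K := k), inner_smul_left, conj_ofReal]

theorem inner_rr (c : ℝ) (a b : V) : inner k a (c • b) = (c : k) * inner k a b := by
  rw [real_smul_eq_coe_smul (K := k), inner_smul_right]

/-- rank one operators -/
def ro : V →L[ℝ] V →L[ℝ] (V →L[k] V) :=
  LinearMap.mkContinuous₂ (LinearMap.mk₂ ℝ (fun a b : V => rankOne k a b)
    (fun a a' b => by simp)
    (fun c a b => by ext x; simp [smul_comm c])
    (fun a b b' => by simp)
    (fun c a b => by
      ext x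
      change inner k (c • b) x • a = c • inner k b x • a
      rw [inner_rl, mul_smul, ← real_smul_eq_coe_smul (K := k)])) 1
    (fun a b => by simp)

theorem ro_apply (a b x : V) : ro k a b x = inner k b x • a := rfl

/-- composition of operators -/
def mu : (V →L[k] V) →L[ℝ] (V →L[k] V) →L[ℝ] (V →L[k] V) :=
  LinearMap.mkContinuous₂ (LinearMap.mk₂ ℝ (fun A B : V →L[k] V => A * B)
    (fun A A' B => add_mul _ _ _)
    (fun c A B => by ext x; simp)
    (fun A B B' => mul_add _ _ _)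
    (fun c A B => by
      ext x
      change A (c • B x) = c • A (B x)
      rw [real_smul_eq_coe_smul (K := k), map_smul, ← real_smul_eq_coe_smul (K := k)])) 1
    (fun A B => by simpa using norm_mul_le A B)

theorem mu_apply (A B : V →L[k] V) (x : V) : mu k A B x = A (B x) := rfl

theorem fin_op : FiniteDimensional ℝ (V →L[k] V) := Module.Finite.trans k _

/-- the real part of the trace -/
def tr : (V →L[k] V) →L[ℝ] ℝ :=
  haveI := fin_op k (V := V)
  LinearMap.toContinuousLinearMap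
    { toFun := fun A => re (LinearMap.trace k V (A : V →ₗ[k] V))
      map_add' := fun A B => by simp
      map_smul' := fun c A => by
        rw [real_smul_eq_coe_smul (K := k), ContinuousLinearMap.toLinearMap_smul, map_smul]
        simp }

theorem tr_ro (a b : V) : tr k (ro k a b) = re (inner k b a) :=
  congrArg re (trace_rankOne a b)

/-- the trace form -/
def tq : (V →L[k] V) →L[ℝ] (V →L[k] V) →L[ℝ] ℝ :=
  (ContinuousLinearMap.compL ℝ _ _ ℝ (tr k)).comp (mu k)

theorem tq_symm (A B : V →L[k] V) : tq k A B = tq k B A :=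
  congrArg re (LinearMap.trace_mul_comm k (A : V →ₗ[k] V) (B : V →ₗ[k] V))

theorem tq_ro (A : V →L[k] V) (a b : V) : tq k A (ro k a b) = re (inner k b (A a)) := by
  rw [← tr_ro]
  exact congrArg (tr k) (comp_rankOne a b A)

/-- the defect of symmetry -/
def sy (a b : V) : (V →L[k] V) →L[ℝ] k :=
  haveI := fin_op k (V := V)
  LinearMap.toContinuousLinearMap
    { toFun := fun A => inner k (A a) b - inner k a (A b)
      map_add' := fun A B => by simp only [add_apply, inner_add_left, inner_add_right]; ring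
      map_smul' := fun c A => by
        simp only [smul_apply, inner_rl, inner_rr, RingHom.id_apply, real_smul_eq_coe_mul]; ring }

theorem sy_apply (a b : V) (A : V →L[k] V) : sy k a b A = inner k (A a) b - inner k a (A b) := rfl

/-- the projector onto the line through `z` -/
def pr (z : V) : V →L[k] V := (‖z‖ ^ 2)⁻¹ • ro k z z

theorem pr_unit {z : V} (hz : ‖z‖ = 1) : pr k z = ro k z z := by simp [pr, hz]

theorem pr_smul {a : k} (ha : a ≠ 0) (z : V) : pr k (a • z) = pr k z := by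
  ext x
  have h : (‖a‖ : k) ≠ 0 := by simpa using ha
  simp only [pr, smul_apply, ro_apply, inner_smul_left, norm_smul, real_smul_eq_coe_smul (K := k),
    smul_smul]
  congr 1
  rw [mul_comm (starRingEnd k a), mul_assoc, RCLike.conj_mul]
  push_cast
  field_simp

theorem pr_sq {z : V} (hz : z ≠ 0) : mu k (pr k z) (pr k z) = pr k z := by
  ext x
  have h : (‖z‖ : k) ≠ 0 := by simpa using hz
  simp only [pr, mu_apply, smul_apply, ro_apply, inner_smul_right, real_smul_eq_coe_smul (K := k),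
    smul_smul, inner_self_eq_norm_sq_to_K]
  congr 1
  push_cast
  field_simp

theorem pr_sy (a b z : V) : sy k a b (pr k z) = 0 := by
  simp only [pr, map_smul, sy_apply, ro_apply, inner_smul_left, inner_smul_right, inner_conj_symm]
  rw [mul_comm, sub_self, smul_zero]

theorem pr_smooth {z : V} (hz : z ≠ 0) : ContDiffAt ℝ ∞ (pr k) z := by
  have h1 : ContDiffAt ℝ ∞ (fun z : V => (‖z‖ ^ 2)⁻¹) z :=
    (contDiff_norm_sq k).contDiffAt.inv (by simpa using hz)
  have h2 := (bil_smooth (ro k (V := V))).contDiffAt (x := z)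
  exact h1.smul h2

/-- the component orthogonal to `z` -/
def hor (z v : V) : V := v - inner k z v • z

theorem inner_hor {z : V} (hz : ‖z‖ = 1) (v : V) : inner k z (hor k z v) = 0 := by
  simp [hor, inner_sub_right, inner_smul_right, hz]

theorem hor_of {z v : V} (h : inner k z v = 0) : hor k z v = v := by simp [hor, h]

theorem pr_deriv {z : V} (hz : ‖z‖ = 1) : ∃ L : V →L[ℝ] (V →L[k] V), HasFDerivAt (pr k) L z ∧
    ∀ v, L v = ro k (hor k z v) z + ro k z (hor k z v) := by
  have e : pr k (V := V) = fun z => (tr k (ro k z z))⁻¹ • ro k z z := by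
    funext z
    rw [pr, tr_ro, inner_self_eq_norm_sq]
  obtain ⟨L, h1, h2⟩ := bil_deriv (ro k) (tr k) (z := z)
    (by rw [tr_ro, inner_self_eq_norm_sq, hz, one_pow])
  refine ⟨L, e ▸ h1, fun v => ?_⟩
  rw [h2, tr_ro, tr_ro, ← inner_conj_symm v z, conj_re]
  ext x
  simp only [sub_apply, add_apply, smul_apply, ro_apply, hor, inner_sub_left, inner_smul_left,
    real_smul_eq_coe_smul (K := k), ← two_mul, ofReal_mul, ofReal_ofNat, ← add_conj]
  module

/-- the value of the second fundamental form -/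
def sf (z a b : V) : V →L[k] V := ro k a b + ro k b a - (2 * re (inner k a b)) • ro k z z

theorem sf_eq {z a b : V} (hz : ‖z‖ = 1) (ha : inner k z a = 0) (hb : inner k z b = 0)
    {H : V →L[k] V} (h1 : ∀ x y, sy k x y H = 0)
    (h2 : ∀ v, inner k z v = 0 → tq k H (ro k v z + ro k z v) = 0)
    (h3 : mu k H (ro k z z) + mu k (ro k z z) H + mu k (ro k a z + ro k z a) (ro k b z + ro k z b) +
      mu k (ro k b z + ro k z b) (ro k a z + ro k z a) = H) : H = sf k z a b := by
  have z1 : inner k z z = 1 := by simp [hz]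
  have ha' : inner k a z = 0 := inner_eq_zero_symm.1 ha
  have hb' : inner k b z = 0 := inner_eq_zero_symm.1 hb
  have s : ∀ x y, inner k (H x) y = inner k x (H y) := fun x y => sub_eq_zero.1 (h1 x y)
  have e1 : H z = inner k z (H z) • z := by
    have h4 := h2 _ (inner_hor k hz (H z))
    rw [map_add, tq_ro, tq_ro, ← s z, ← inner_conj_symm (H z), conj_re] at h4
    have h5 : inner k (hor k z (H z)) (hor k z (H z)) = inner k (hor k z (H z)) (H z) := by
      nth_rewrite 2 [hor]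
      rw [inner_sub_right, inner_smul_right, inner_eq_zero_symm.1 (inner_hor k hz _), mul_zero,
        sub_zero]
    have h6 : ‖hor k z (H z)‖ ^ 2 = 0 := by
      rw [← inner_self_eq_norm_sq (𝕜 := k), h5]
      linarith
    exact sub_eq_zero.1 (norm_eq_zero.1 (pow_eq_zero_iff two_ne_zero |>.1 h6))
  have c : ((2 * re (inner k a b) : ℝ) : k) = inner k a b + inner k b a := by
    rw [← inner_conj_symm b a, add_conj]
    push_cast
    rfl
  have e2 : H z = -(inner k a b + inner k b a) • z := by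
    have h4 := congrArg (fun A => A z) h3
    simp only [add_apply, mu_apply, ro_apply, z1, ha', hb', ha, hb, one_smul, zero_smul, add_zero,
      zero_add] at h4
    rw [← e1] at h4
    linear_combination (norm := module) h4
  have e3 : ∀ u, inner k z u = 0 → H u = inner k b u • a + inner k a u • b := by
    intro u hu
    have h4 := congrArg (fun A => A u) h3
    have h5 : inner k z (H u) = 0 := by rw [← s, e2, inner_smul_left, hu, mul_zero]
    simp only [add_apply, mu_apply, ro_apply, hu, zero_smul, map_zero, h5, zero_add, map_smul,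
      z1, one_smul, ha', hb', add_zero] at h4
    exact h4.symm
  ext x
  have h7 : x = hor k z x + inner k z x • z := (sub_add_cancel _ _).symm
  have h8 := inner_hor k hz x
  generalize hor k z x = u at h7 h8
  rw [h7, map_add, map_add, map_smul, map_smul, e3 u h8, e2]
  simp only [sf, sub_apply, add_apply, smul_apply, ro_apply, h8, ha', hb', z1,
    real_smul_eq_coe_smul (K := k), c]
  module

theorem tq_tan {z a b : V} (hz : ‖z‖ = 1) (ha : inner k z a = 0) (hb : inner k z b = 0) :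
    tq k (ro k a z + ro k z a) (ro k b z + ro k z b) = 2 * re (inner k a b) := by
  have z1 : inner k z z = 1 := by simp [hz]
  have ha' : inner k a z = 0 := inner_eq_zero_symm.1 ha
  rw [map_add, tq_ro, tq_ro]
  simp only [add_apply, ro_apply, inner_add_right, inner_smul_right, z1, ha, hb, ha', one_smul,
    zero_smul, zero_add, add_zero, mul_one, mul_zero]
  rw [← inner_conj_symm b a, conj_re, two_mul]

theorem tq_sf {z a b c d : V} (hz : ‖z‖ = 1) (ha : inner k z a = 0) (hb : inner k z b = 0)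
    (hc : inner k z c = 0) (hd : inner k z d = 0) :
    tq k (sf k z a b) (sf k z c d) = re (inner k b c * inner k d a + inner k a c * inner k d b +
      (inner k b d * inner k c a + inner k a d * inner k c b)) +
      4 * (re (inner k a b) * re (inner k c d)) := by
  have z1 : inner k z z = 1 := by simp [hz]
  have ha' : inner k a z = 0 := inner_eq_zero_symm.1 ha
  have hb' : inner k b z = 0 := inner_eq_zero_symm.1 hb
  nth_rewrite 2 [sf]
  rw [map_sub, map_add, map_smul, tq_ro, tq_ro, tq_ro]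
  simp only [sf, sub_apply, add_apply, smul_apply, ro_apply, inner_add_right, inner_smul_right,
    z1, ha, hb, hc, hd, ha', hb', one_smul, zero_smul, smul_zero, sub_zero, add_zero, zero_sub,
    inner_neg_right, inner_rr, mul_one, map_neg, ofReal_re, smul_eq_mul, map_add]
  ring

theorem sf_gauss {z a b d : V} (hz : ‖z‖ = 1) (ha : inner k z a = 0) (hb : inner k z b = 0)
    (hd : inner k z d = 0) :
    tq k (sf k z b d) (sf k z a a) - tq k (sf k z a d) (sf k z b a) =
      2 * (re (inner k a a) * re (inner k b d) - re (inner k a b) * re (inner k a d) +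
        3 * (re (inner k a ((I : k) • b)) * re (inner k a ((I : k) • d)))) := by
  rw [tq_sf k hz hb hd ha ha, tq_sf k hz ha hd hb ha, inner_smul_right, inner_smul_right,
    I_mul_re, I_mul_re, ← inner_conj_symm d a, ← inner_conj_symm b a, ← inner_conj_symm d b]
  simp only [map_add, mul_re, conj_re, conj_im, inner_self_im]
  ring

end

end Vale.Agent.N211

end

section

/-! The curvature of the Fubini-Study metric. -/

set_option maxSynthPendingDepth 3
set_option linter.unusedSectionVars false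

namespace Vale.Agent.N211

open scoped Manifold ContDiff Topology LinearAlgebra.Projectivization
open Bundle Filter VectorField Vale.Agent.P211 Vale.Agent.P211.NN Vale.Agent.P211Y RCLike

noncomputable section

variable {E : Type} [NormedAddCommGroup E] [NormedSpace ℝ E] [FiniteDimensional ℝ E]
  {N : Type} [MetricSpace N] [ChartedSpace E N] [IsManifold 𝓘(ℝ, E) ∞ N]
  [RiemannianBundle fun p : N => TangentSpace 𝓘(ℝ, E) p]
  [IsContMDiffRiemannianBundle 𝓘(ℝ, E) ∞ E fun p : N => TangentSpace 𝓘(ℝ, E) p]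
  {cov : CovariantDerivative 𝓘(ℝ, E) E (TangentSpace 𝓘(ℝ, E) : N → Type)}
  (k : Type) [RCLike k] {V : Type} [NormedAddCommGroup V] [InnerProductSpace k V]
  [NormedSpace ℝ V] [IsScalarTower ℝ k V] [FiniteDimensional k V]

theorem fs_hor {z : V} (hz : ‖z‖ = 1) (v w : V) :
    fs k z v w = re (inner k (hor k z v) (hor k z w)) := by
  have z1 : inner k z z = 1 := by simp [hz]
  rw [fs, hz, z1]
  simp only [hor, inner_sub_left, inner_sub_right, inner_smul_left, inner_smul_right, z1,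
    inner_conj_symm, one_pow, div_one]
  congr 1
  ring

/-- the data at a point -/
def PD (c : ℝ) (F : N → (V →L[k] V)) (p : N) : Prop :=
  ∃ (z : V) (ξ : TangentSpace 𝓘(ℝ, E) p → V), ‖z‖ = 1 ∧ F p = ro k z z ∧
    (∀ v, inner k z (ξ v) = 0) ∧ (∀ v, mvfderiv 𝓘(ℝ, E) F p v = ro k (ξ v) z + ro k z (ξ v)) ∧
    (∀ v w, inner ℝ v w = c ^ 2 * re (inner k (ξ v) (ξ w))) ∧
    ∀ u, inner k z u = 0 → ∃ v, ξ v = u

theorem exists_proj {c : ℝ} (h : IsoLines E N k V c) : ∃ F : N → (V →L[k] V), Smo E F ∧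
    (∀ y, ∃ z, z ≠ 0 ∧ F y = pr k z) ∧ ∀ p, PD (E := E) k c F p := by
  obtain ⟨Φ, P, h1, h2⟩ := h
  let F : N → (V →L[k] V) := fun x => pr k (Φ.symm x).rep
  have hF : ∀ z, z ≠ 0 → F (P z) = pr k z := by
    intro z hz
    obtain ⟨a, ha⟩ := Projectivization.exists_smul_eq_mk_rep k z hz
    change pr k (Φ.symm (P z)).rep = _
    rw [(h1 z hz).1, Φ.symm_apply_apply, ← ha]
    exact pr_smul k a.ne_zero z
  have hs : ∀ x : N, ∃ s : N → V, ContMDiffAt 𝓘(ℝ, E) 𝓘(ℝ, V) ∞ s x ∧
      (∀ᶠ y in 𝓝 x, s y ≠ 0 ∧ P (s y) = y) ∧ ‖s x‖ = 1 := by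
    intro x
    obtain ⟨s, s1, s2⟩ := h2 x
    have s0 : ‖s x‖⁻¹ ≠ 0 := inv_ne_zero (norm_ne_zero_iff.2 s2.self_of_nhds.1)
    refine ⟨fun y => ‖s x‖⁻¹ • s y, (contDiff_const_smul _).contMDiff.contMDiffAt.comp x s1,
      s2.mono fun y hy => ?_, ?_⟩
    · have h3 := smul_ne_zero s0 hy.1
      refine ⟨h3, Eq.trans ?_ hy.2⟩
      rw [(h1 _ h3).1, (h1 _ hy.1).1]
      exact congrArg Φ ((Projectivization.mk_eq_mk_iff' k _ _ _ _).2
        ⟨_, (real_smul_eq_coe_smul (K := k) _ _).symm⟩)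
    · rw [norm_smul, norm_inv, norm_norm, inv_mul_cancel₀ (norm_ne_zero_iff.2 s2.self_of_nhds.1)]
  have ev : ∀ {x : N} {s : N → V}, (∀ᶠ y in 𝓝 x, s y ≠ 0 ∧ P (s y) = y) →
      F =ᶠ[𝓝 x] pr k ∘ s := fun h => h.mono fun y hy => by
    rw [Function.comp_apply, ← hF _ hy.1, hy.2]
  have sm : Smo E F := fun x => by
    obtain ⟨s, s1, s2, -⟩ := hs x
    exact ((pr_smooth k s2.self_of_nhds.1).contMDiffAt.comp x s1).congr_of_eventuallyEq (ev s2)
  refine ⟨F, sm, fun y => ⟨_, Projectivization.rep_nonzero _, rfl⟩, fun p => ?_⟩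
  obtain ⟨s, s1, s2, s3⟩ := hs p
  obtain ⟨z, hz⟩ : ∃ z, z = s p := ⟨_, rfl⟩
  have hp : P z = p := hz ▸ s2.self_of_nhds.2
  subst hp
  rw [← hz] at s3
  have z0 : z ≠ 0 := norm_ne_zero_iff.1 (by rw [s3]; exact one_ne_zero)
  obtain ⟨L, l1, l2⟩ := pr_deriv k s3
  have sd := s1.mdifferentiableAt (by simp)
  have Pd := (h1 z z0).2.1.mdifferentiableAt (by simp)
  have d1 : ∀ v, mvfderiv 𝓘(ℝ, E) F (P z) v = L (mvfderiv 𝓘(ℝ, E) s (P z) v) := by
    intro v
    rw [← P211W.mv_comp (hz ▸ l1) sd v]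
    exact congrArg (fun A : TangentSpace 𝓘(ℝ, E) (P z) →L[ℝ] (V →L[k] V) => A v) (ev s2).mfderiv_eq
  have d2 : ∀ v, mfderiv 𝓘(ℝ, V) 𝓘(ℝ, E) P z (mvfderiv 𝓘(ℝ, E) s (P z) v) = v := by
    intro v
    have h3 := mfderiv_comp_apply_of_eq (P z) Pd sd hz.symm v
    have h4 : P ∘ s =ᶠ[𝓝 (P z)] id := s2.mono fun y hy => hy.2
    rw [h4.mfderiv_eq, mfderiv_id] at h3
    exact h3.symm
  refine ⟨z, fun v => hor k z (mvfderiv 𝓘(ℝ, E) s (P z) v), s3, (hF z z0).trans (pr_unit k s3),
    fun v => inner_hor k s3 _, fun v => (d1 v).trans (l2 _), fun v w => ?_, fun u hu => ?_⟩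
  · rw [← fs_hor k s3, ← (h1 z z0).2.2, d2, d2]
  · refine ⟨mfderiv 𝓘(ℝ, V) 𝓘(ℝ, E) P z u, ?_⟩
    have h3 := mfderiv_comp_apply z (sm.md (P z)) Pd u
    have h4 : F ∘ P =ᶠ[𝓝 z] pr k := (eventually_ne_nhds z0).mono fun y hy => hF y hy
    rw [h4.mfderiv_eq, mfderiv_eq_fderiv, l1.fderiv] at h3
    have h5 : L u = L (mvfderiv 𝓘(ℝ, E) s (P z) (mfderiv 𝓘(ℝ, V) 𝓘(ℝ, E) P z u)) :=
      h3.trans (d1 _)
    have h6 := congrArg (fun A => A z) h5
    have z1 : inner k z z = 1 := by simp [s3]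
    simp only [l2, _root_.add_apply, ro_apply, z1, one_smul,
      inner_eq_zero_symm.1 (inner_hor k s3 _), zero_smul, add_zero, hor_of k hu] at h6
    rw [inner_eq_zero_symm.1 hu, zero_smul, add_zero] at h6
    exact h6.symm

theorem kp_lines (hc : IsLC cov) {c : ℝ} (hc0 : 0 < c) (h : IsoLines E N k V c) :
    KP cov (c ^ 2)⁻¹ (‖(I : k)‖ ^ 2) := by
  obtain ⟨F, sm, h1, h2⟩ := exists_proj k h
  let q := (c ^ 2 / 2) • tq k (V := V)
  have hq : ∀ A B, q A B = c ^ 2 / 2 * tq k A B := fun _ _ => rfl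
  have hs : ∀ A B, q A B = q B A := fun A B => by rw [hq, hq, tq_symm]
  have hg : ∀ (X Y : VF E N) (p : N), inner ℝ (X p) (Y p) = q (D X F p) (D Y F p) := by
    intro X Y p
    obtain ⟨z, ξ, z1, -, x1, x2, x3, -⟩ := h2 p
    rw [hq, D, D, x2, x2, tq_tan k z1 (x1 _) (x1 _), x3]
    ring
  intro p
  obtain ⟨z, ξ, z1, f1, x1, x2, x3, x4⟩ := h2 p
  have hH : ∀ X Y : VF E N, II hc F X Y p = sf k z (ξ (X p)) (ξ (Y p)) := by
    intro X Y
    refine sf_eq k z1 (x1 _) (x1 _) (fun x y => ?_) (fun u hu => ?_) ?_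
    · have e : (fun w => sy k x y (F w)) = fun _ => 0 := funext fun w => by
        obtain ⟨a, -, ha⟩ := h1 w
        rw [ha, pr_sy]
      rw [← II_lin hc _ sm, e, II, D_const, D_const, D_const, sub_self]
    · obtain ⟨v, rfl⟩ := x4 u hu
      obtain ⟨Z, rfl⟩ := exists_ext p v
      have h3 := II_normal hc hs sm hg X Y Z p
      rw [hq, D, x2] at h3
      exact (mul_eq_zero.1 h3).resolve_left (by positivity)
    · have h3 := quad2 hc (mu k) (ContinuousLinearMap.id ℝ _) 0 sm (fun w => by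
        obtain ⟨a, a0, ha⟩ := h1 w
        rw [ha, pr_sq k a0, add_zero]
        rfl) X Y p
      rwa [D, D, x2, x2, f1] at h3
  choose J hJ using fun v => x4 ((I : k) • ξ v) (by rw [inner_smul_right, x1, mul_zero])
  refine ⟨J, fun v w => ?_, fun v => ?_, fun X Y Z => ?_⟩
  · rw [x3, x3, hJ, hJ, inner_smul_left, inner_smul_right, ← mul_assoc (starRingEnd k I),
      RCLike.conj_mul, ← ofReal_pow, re_ofReal_mul]
    ring
  · rw [x3, hJ, inner_smul_left, conj_I, neg_mul, map_neg, I_mul_re, inner_self_im]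
    simp
  · rw [gauss hc hs sm hg, hH, hH, hH, hH, hq, hq, ← mul_sub, sf_gauss k z1 (x1 _) (x1 _) (x1 _)]
    simp only [x3, hJ]
    field_simp

end

end Vale.Agent.N211

end
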