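import Vale.Agent.P211W98.St2

/-! The eleven closed model spaces. -/

namespace Vale.Agent.N211

open scoped Manifold ContDiff
open Bundle Vale.Agent.P211.NN Vale.Agent.P211Y

noncomputable section

/-- The orbit of `(x, y)` under each of eight groups acting on `V × V`, where `ρ` is a reflection.
The groups are generated by: nothing; `(-1, 1)`; `(-1, -1)`; `(-1, ρ)`; `(-1, -ρ)`;
`(-1, 1)` and `(1, -1)`; `(-1, ρ)` and `(1, -1)`; `(x, y) ↦ (y, -x)`. -/
def orb {V : Type} [Neg V] (ρ : V → V) (k : Fin 8) (x y : V) : Set (V × V) :=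
  ![{(x, y)}, {(x, y), (-x, y)}, {(x, y), (-x, -y)}, {(x, y), (-x, ρ y)}, {(x, y), (-x, -ρ y)},
    {(x, y), (-x, y), (x, -y), (-x, -y)}, {(x, y), (-x, ρ y), (x, -y), (-x, -ρ y)},
    {(x, y), (y, -x), (-x, -y), (-y, x)}] k

/-- The reflection of `ℝ³` in a coordinate plane. -/
def refl (y : EuclideanSpace ℝ (Fin 3)) : EuclideanSpace ℝ (Fin 3) := !₂[-y 0, y 1, y 2]

variable (E : Type) [NormedAddCommGroup E] [NormedSpace ℝ E]
  (N : Type) [TopologicalSpace N] [ChartedSpace E N]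
  [RiemannianBundle fun p : N => TangentSpace 𝓘(ℝ, E) p]

/-- `N` is isometric to the quotient of the Riemannian product `S × S` (each factor with `r²` times
the metric induced by `j : S → V`) whose fibres are the sets `O x y`: there is a surjective local
diffeomorphism `S × S → N` with these fibres which pulls the metric of `N` back to the product
metric. -/
def IsoQuot (H : Type) [NormedAddCommGroup H] [NormedSpace ℝ H] {S : Type} [TopologicalSpace S]
    [ChartedSpace H S] {V : Type} [NormedAddCommGroup V] [InnerProductSpace ℝ V] (j : S → V)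
    (r : ℝ) (O : V → V → Set (V × V)) : Prop :=
  ∃ ψ : S × S → N, Function.Surjective ψ ∧
    IsLocalDiffeomorph (𝓘(ℝ, H).prod 𝓘(ℝ, H)) 𝓘(ℝ, E) ∞ ψ ∧
    (∀ (p : S × S) (v w : H × H),
      inner ℝ (mfderiv (𝓘(ℝ, H).prod 𝓘(ℝ, H)) 𝓘(ℝ, E) ψ p v)
        (mfderiv (𝓘(ℝ, H).prod 𝓘(ℝ, H)) 𝓘(ℝ, E) ψ p w) =
        r ^ 2 * pb H S j p.1 v.1 w.1 + r ^ 2 * pb H S j p.2 v.2 w.2) ∧
    ∀ p q : S × S, ψ p = ψ q ↔ (j q.1, j q.2) ∈ O (j p.1) (j p.2)

/-- `N` is isometric to the model space number `i` for the Einstein constant `lam`: the round `S⁴`,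
the round `ℝP⁴`, `ℂP²`, or the quotient of `S² × S²` by one of the eight groups. -/
def IsoModel (lam : ℝ) : Fin 3 ⊕ Fin 8 → Prop :=
  Sum.elim ![IsoS4 E N √(3 / lam), IsoProj E N ℝ 4 √(3 / lam), IsoProj E N ℂ 2 √(6 / lam)]
    fun k => IsoQuot E N (EuclideanSpace ℝ (Fin 2))
      (Subtype.val : Sph 2 → EuclideanSpace ℝ (Fin 3)) √(1 / lam) (orb refl k)

variable {E N} in
/-- All sectional curvatures at the point `p` are positive. -/
def PosAt [IsManifold 𝓘(ℝ, E) ∞ N]
    (cov : CovariantDerivative 𝓘(ℝ, E) E (TangentSpace 𝓘(ℝ, E) : N → Type)) (p : N) : Prop :=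
  ∀ X Y : SmoothField E N, LinearIndependent ℝ ![X p, Y p] → 0 < Rm cov X Y Y X p

end

end Vale.Agent.N211
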