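import Mathlib.Geometry.Euclidean.Angle.Unoriented.Basic
import Mathlib.Analysis.InnerProductSpace.PiL2
import Vale.Agent.N211.Defs
import Vale.Agent.P211Z.Sphere

section

/-! Distance preserving maps of a product of two round spheres. -/

set_option linter.unusedSectionVars false

namespace Vale.Agent.N211

open InnerProductGeometry Real

variable {V : Type} [NormedAddCommGroup V] [InnerProductSpace ℝ V]

theorem ne0 {x : V} (hx : ‖x‖ = 1) : x ≠ 0 := norm_ne_zero_iff.1 (by rw [hx]; exact one_ne_zero)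

theorem inner_eq_cos {x y : V} (hx : ‖x‖ = 1) (hy : ‖y‖ = 1) :
    inner ℝ x y = cos (angle x y) := by
  rw [cos_angle, hx, hy, mul_one, div_one]

theorem angle_eq_zero_unit {x y : V} (hx : ‖x‖ = 1) (hy : ‖y‖ = 1) : angle x y = 0 ↔ x = y := by
  refine ⟨fun h => ?_, fun h => h ▸ angle_self (ne0 hx)⟩
  refine (inner_eq_one_iff_of_norm_eq_one (𝕜 := ℝ) hx hy).1 ?_
  rw [inner_eq_cos hx hy, h, cos_zero]

theorem angle_eq_pi_unit {x y : V} (hx : ‖x‖ = 1) (hy : ‖y‖ = 1) (h : angle x y = π) :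
    y = -x := by
  have h1 : angle x (-y) = 0 := by rw [angle_neg_right, h, sub_self]
  rw [(angle_eq_zero_unit hx (by rw [norm_neg, hy])).1 h1, neg_neg]

theorem neg_ne_unit {x : V} (hx : ‖x‖ = 1) : -x ≠ x := fun h => by
  have h1 : (2 : ℝ) • x = 0 := by rw [two_smul]; nth_rewrite 1 [← h]; exact neg_add_cancel x
  exact ne0 hx ((smul_eq_zero.1 h1).resolve_left two_ne_zero)

/-- a map of the unit sphere preserving scalar products is linear -/
theorem exists_lin [FiniteDimensional ℝ V] {u : V → V}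
    (h : ∀ x y, ‖x‖ = 1 → ‖y‖ = 1 → inner ℝ (u x) (u y) = inner ℝ x y) :
    ∃ U : V ≃ₗᵢ[ℝ] V, ∀ x, ‖x‖ = 1 → u x = U x := by
  let b := stdOrthonormalBasis ℝ V
  have h1 : Orthonormal ℝ fun i => u (b i) := by
    rw [orthonormal_iff_ite]
    intro i j
    rw [h _ _ (b.orthonormal.1 i) (b.orthonormal.1 j)]
    exact orthonormal_iff_ite.1 b.orthonormal i j
  obtain ⟨c, hc⟩ := Orthonormal.exists_orthonormalBasis_extension_of_card_eq (𝕜 := ℝ) (E := V)
    (ι := Fin (Module.finrank ℝ V)) (by simp) (v := fun i => u (b i)) (s := Set.univ)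
    (h1.comp _ Subtype.val_injective)
  refine ⟨b.repr.trans c.repr.symm, fun x hx => ?_⟩
  apply c.repr.injective
  ext i
  rw [LinearIsometryEquiv.trans_apply, LinearIsometryEquiv.apply_symm_apply, c.repr_apply_apply,
    b.repr_apply_apply, hc i (Set.mem_univ i), h _ _ (b.orthonormal.1 i) hx]

section

variable {a b : V → V → V} (ha : ∀ x y, ‖x‖ = 1 → ‖y‖ = 1 → ‖a x y‖ = 1)
  (hb : ∀ x y, ‖x‖ = 1 → ‖y‖ = 1 → ‖b x y‖ = 1)
  (hd : ∀ x y x' y', ‖x‖ = 1 → ‖y‖ = 1 → ‖x'‖ = 1 → ‖y'‖ = 1 →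
    angle (a x y) (a x' y') ^ 2 + angle (b x y) (b x' y') ^ 2 = angle x x' ^ 2 + angle y y' ^ 2)

include ha hb hd

theorem anti {x y : V} (hx : ‖x‖ = 1) (hy : ‖y‖ = 1) :
    a (-x) (-y) = -a x y ∧ b (-x) (-y) = -b x y := by
  have hx' : ‖-x‖ = 1 := by rw [norm_neg, hx]
  have hy' : ‖-y‖ = 1 := by rw [norm_neg, hy]
  have h := hd x y (-x) (-y) hx hy hx' hy'
  rw [angle_self_neg_of_nonzero (ne0 hx), angle_self_neg_of_nonzero (ne0 hy)] at h
  have h1 := angle_le_pi (a x y) (a (-x) (-y))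
  have h2 := angle_le_pi (b x y) (b (-x) (-y))
  have h3 := angle_nonneg (a x y) (a (-x) (-y))
  have h4 := angle_nonneg (b x y) (b (-x) (-y))
  have h5 := pi_pos
  exact ⟨angle_eq_pi_unit (ha _ _ hx hy) (ha _ _ hx' hy') (by nlinarith),
    angle_eq_pi_unit (hb _ _ hx hy) (hb _ _ hx' hy') (by nlinarith)⟩

theorem angles {x y x' y' : V} (hx : ‖x‖ = 1) (hy : ‖y‖ = 1) (hx' : ‖x'‖ = 1) (hy' : ‖y'‖ = 1) :
    (angle (a x y) (a x' y') = angle x x' ∧ angle (b x y) (b x' y') = angle y y') ∨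
    (angle (a x y) (a x' y') = angle y y' ∧ angle (b x y) (b x' y') = angle x x') := by
  have h1 := hd x y x' y' hx hy hx' hy'
  have h2 := hd x y (-x') (-y') hx hy (by rw [norm_neg, hx']) (by rw [norm_neg, hy'])
  rw [(anti ha hb hd hx' hy').1, (anti ha hb hd hx' hy').2] at h2
  simp only [angle_neg_right] at h2
  generalize angle (a x y) (a x' y') = s, angle (b x y) (b x' y') = t, angle x x' = u,
    angle y y' = v at h1 h2
  have h3 : π * (s + t - (u + v)) = 0 := by linear_combination (h1 - h2) / 2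
  have h4 : t = u + v - s := by linarith [(mul_eq_zero.1 h3).resolve_left pi_ne_zero]
  have h5 : (s - u) * (s - v) = 0 := by rw [h4] at h1; linear_combination h1 / 2
  rcases mul_eq_zero.1 h5 with h | h
  · left; constructor <;> linarith
  · right; constructor <;> linarith

/-- along a first factor one of the two components is constant -/
theorem row {y : V} (hy : ‖y‖ = 1) :
    (∀ x x', ‖x‖ = 1 → ‖x'‖ = 1 → b x y = b x' y) ∨
    (∀ x x', ‖x‖ = 1 → ‖x'‖ = 1 → a x y = a x' y) := by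
  have k : ∀ x x', ‖x‖ = 1 → ‖x'‖ = 1 → b x y = b x' y ∨ a x y = a x' y := by
    intro x x' hx hx'
    rcases angles ha hb hd hx hy hx' hy with h | h
    · left
      rw [← angle_eq_zero_unit (hb _ _ hx hy) (hb _ _ hx' hy), h.2, angle_self (ne0 hy)]
    · right
      rw [← angle_eq_zero_unit (ha _ _ hx hy) (ha _ _ hx' hy), h.1, angle_self (ne0 hy)]
  by_contra h
  push Not at h
  obtain ⟨⟨x1, x2, h1, h2, h12⟩, x3, x4, h3, h4, h34⟩ := h
  have a12 := (k _ _ h1 h2).resolve_left h12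
  have b34 := (k _ _ h3 h4).resolve_right h34
  have c : ∀ x, ‖x‖ = 1 → a x y = a x1 y := by
    intro x hx
    rcases k x x1 hx h1 with e | e
    · rcases k x x2 hx h2 with e' | e'
      · exact absurd (e.symm.trans e') h12
      · exact e'.trans a12.symm
    · exact e
  exact h34 ((c _ h3).trans (c _ h4).symm)

theorem no_cross {x y x' y' : V} (hx : ‖x‖ = 1) (hy : ‖y‖ = 1) (hx' : ‖x'‖ = 1) (hy' : ‖y'‖ = 1)
    (h : b x y = b x' y' ∨ a x y = a x' y') : x = x' ∨ y = y' := by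
  rw [← angle_eq_zero_unit hx hx', ← angle_eq_zero_unit hy hy']
  rcases h with h | h
  · have h1 := (angle_eq_zero_unit (hb _ _ hx hy) (hb _ _ hx' hy')).2 h
    rcases angles ha hb hd hx hy hx' hy' with e | e
    · exact Or.inr (e.2.symm.trans h1)
    · exact Or.inl (e.2.symm.trans h1)
  · have h1 := (angle_eq_zero_unit (ha _ _ hx hy) (ha _ _ hx' hy')).2 h
    rcases angles ha hb hd hx hy hx' hy' with e | e
    · exact Or.inl (e.1.symm.trans h1)
    · exact Or.inr (e.1.symm.trans h1)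

theorem split_of [FiniteDimensional ℝ V] {y₀ : V} (h₀ : ‖y₀‖ = 1)
    (hr : ∀ x x', ‖x‖ = 1 → ‖x'‖ = 1 → b x y₀ = b x' y₀) :
    ∃ U W : V ≃ₗᵢ[ℝ] V, ∀ x y, ‖x‖ = 1 → ‖y‖ = 1 → a x y = U x ∧ b x y = W y := by
  have n : ∀ {x : V}, ‖x‖ = 1 → ‖-x‖ = 1 := fun hx => by rw [norm_neg, hx]
  have c1 : ∀ x, ‖x‖ = 1 → ∀ y y', ‖y‖ = 1 → ‖y'‖ = 1 → a x y = a x y' := by
    intro x hx
    refine (row (a := fun y x => a x y) (b := fun y x => b x y) (fun _ _ h h' => ha _ _ h' h)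
      (fun _ _ h h' => hb _ _ h' h)
      (fun _ _ _ _ h1 h2 h3 h4 => (hd _ _ _ _ h2 h1 h4 h3).trans (add_comm _ _)) hx).resolve_left
      fun h => ?_
    rcases no_cross ha hb hd (n hx) h₀ hx (n h₀)
      (Or.inl ((hr _ _ (n hx) hx).trans (h _ _ h₀ (n h₀)))) with e | e
    · exact neg_ne_unit hx e
    · exact neg_ne_unit h₀ e.symm
  have c2 : ∀ y, ‖y‖ = 1 → ∀ x x', ‖x‖ = 1 → ‖x'‖ = 1 → b x y = b x' y := by
    intro y hy
    refine (row ha hb hd hy).resolve_right fun h => ?_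
    rcases no_cross ha hb hd (n hy) hy hy (n hy)
      (Or.inr ((h _ _ (n hy) hy).trans (c1 _ hy _ _ hy (n hy)))) with e | e
    · exact neg_ne_unit hy e
    · exact neg_ne_unit hy e.symm
  obtain ⟨U, hU⟩ := exists_lin (u := fun x => a x y₀) fun x x' hx hx' => by
    have h := hd x y₀ x' y₀ hx h₀ hx' h₀
    rw [hr _ _ hx hx', angle_self (ne0 (hb _ _ hx' h₀)), angle_self (ne0 h₀), add_left_inj,
      sq_eq_sq₀ (angle_nonneg _ _) (angle_nonneg _ _)] at h
    rw [inner_eq_cos (ha _ _ hx h₀) (ha _ _ hx' h₀), h, inner_eq_cos hx hx']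
  obtain ⟨W, hW⟩ := exists_lin (u := fun y => b y₀ y) fun y y' hy hy' => by
    have h := hd y₀ y y₀ y' h₀ hy h₀ hy'
    rw [c1 _ h₀ _ _ hy hy', angle_self (ne0 (ha _ _ h₀ hy')), angle_self (ne0 h₀), add_right_inj,
      sq_eq_sq₀ (angle_nonneg _ _) (angle_nonneg _ _)] at h
    rw [inner_eq_cos (hb _ _ h₀ hy) (hb _ _ h₀ hy'), h, inner_eq_cos hy hy']
  exact ⟨U, W, fun x y hx hy => ⟨(c1 _ hx _ _ hy h₀).trans (hU x hx),
    (c2 _ hy _ _ hx h₀).trans (hW y hy)⟩⟩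

/-- a distance preserving map of the product preserves or exchanges the factors, and is linear -/
theorem split [FiniteDimensional ℝ V] [Nontrivial V] :
    (∃ U W : V ≃ₗᵢ[ℝ] V, ∀ x y, ‖x‖ = 1 → ‖y‖ = 1 → a x y = U x ∧ b x y = W y) ∨
    (∃ U W : V ≃ₗᵢ[ℝ] V, ∀ x y, ‖x‖ = 1 → ‖y‖ = 1 → a x y = U y ∧ b x y = W x) := by
  obtain ⟨y₀, h₀⟩ := exists_norm_eq V zero_le_one
  rcases row ha hb hd h₀ with h | h
  · exact Or.inl (split_of ha hb hd h₀ h)
  · obtain ⟨U, W, hUW⟩ := split_of (a := b) (b := a) hb ha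
      (fun _ _ _ _ h1 h2 h3 h4 => (add_comm _ _).trans (hd _ _ _ _ h1 h2 h3 h4)) h₀ h
    exact Or.inr ⟨W, U, fun x y hx hy => (hUW x y hx hy).symm⟩

end

end Vale.Agent.N211

end

section

/-! The groups of isometries acting freely on the product of two round two-spheres. -/

set_option linter.unusedSectionVars false
set_option linter.unusedVariables false
set_option linter.unusedSimpArgs false

namespace Vale.Agent.N211

open Matrix

abbrev R3 : Type := EuclideanSpace ℝ (Fin 3)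

abbrev O3 : Type := R3 ≃ₗᵢ[ℝ] R3

theorem unit_of_fixed {U : O3} {v : R3} (hv : v ≠ 0) (h : U v = v) : ∃ x, ‖x‖ = 1 ∧ U x = x :=
  ⟨‖v‖⁻¹ • v, norm_smul_inv_norm hv, by rw [map_smul, h]⟩

theorem fix_sq (U : O3) : ∃ x, ‖x‖ = 1 ∧ (U * U) x = x := by
  let A : Matrix (Fin 3) (Fin 3) ℝ := Matrix.of fun i j => U (EuclideanSpace.single j 1) i
  have key : ∀ x : R3, Aᵀ *ᵥ (U x).ofLp = x.ofLp := by
    intro x
    funext j
    have h := U.inner_map_map x (EuclideanSpace.single j 1)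
    rw [EuclideanSpace.inner_single_right] at h
    simp only [conj_trivial, one_mul] at h
    rw [← h, PiLp.inner_apply]
    simp [A, Matrix.mulVec, dotProduct]
  have hA : Aᵀ * A = 1 := by
    ext j k
    have h := congrFun (key (EuclideanSpace.single k 1)) j
    simp only [Matrix.mul_apply, Matrix.one_apply]
    simpa [A, Matrix.mulVec, dotProduct, Pi.single_apply] using h
  have hA' : A * Aᵀ = 1 := mul_eq_one_comm.mp hA
  have h1 : ∀ x : R3, (U x).ofLp = A *ᵥ x.ofLp := fun x => by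
    rw [← key x, Matrix.mulVec_mulVec, hA', Matrix.one_mulVec]
  obtain ⟨v, hv, h⟩ := P211Z.exists_fixed_of_odd (by decide : Odd 3) hA'
  refine unit_of_fixed (v := WithLp.toLp 2 v) (fun h0 => hv (congrArg WithLp.ofLp h0)) ?_
  apply WithLp.ofLp_injective 2
  rw [LinearIsometryEquiv.coe_mul, Function.comp_apply, h1, h1]
  exact h

/-- minus the identity -/
noncomputable abbrev m1 : O3 := LinearIsometryEquiv.neg ℝ

theorem m1_apply (x : R3) : m1 x = -x := rfl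

theorem mul_app (U W : O3) (x : R3) : (U * W) x = U (W x) := rfl

theorem one_app (x : R3) : (1 : O3) x = x := rfl

theorem m1_comm (U : O3) : U * m1 = m1 * U := by ext1 x; simp [m1_apply]

theorem m1_sq : m1 * m1 = 1 := by ext1 x; simp [m1_apply]

theorem m1_ne : m1 ≠ 1 := fun h => by
  obtain ⟨y, hy⟩ := exists_norm_eq R3 zero_le_one
  exact neg_ne_unit hy (by rw [← m1_apply, h, one_app])

theorem fixed_or {U : O3} (h : U * U = 1) : (∃ x, ‖x‖ = 1 ∧ U x = x) ∨ U = m1 := by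
  by_cases h1 : U = m1
  · exact Or.inr h1
  · obtain ⟨v, hv⟩ : ∃ v, U v ≠ -v := by
      by_contra h2
      push Not at h2
      exact h1 (LinearIsometryEquiv.ext h2)
    refine Or.inl (unit_of_fixed (v := v + U v) (fun h0 => hv (eq_neg_of_add_eq_zero_right h0)) ?_)
    rw [map_add, ← mul_app, h, one_app, add_comm]

theorem refl_neg (y : R3) : refl (-y) = -refl y := by
  ext i; fin_cases i <;> simp [refl]

theorem refl_refl (y : R3) : refl (refl y) = y := by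
  ext i; fin_cases i <;> simp [refl]

theorem normal_of {U : O3} (h : U * U = 1) (b : OrthonormalBasis (Fin 3) ℝ R3)
    (h0 : U (b 0) = -b 0) (h1 : U (b 1) = b 1) (h2 : U (b 2) = b 2) (y : R3) :
    b.repr (U y) = refl (b.repr y) := by
  have k : ∀ i, b.repr (U y) i = inner ℝ (U (b i)) y := fun i => by
    rw [b.repr_apply_apply, ← U.inner_map_map, ← mul_app U U, h, one_app]
  ext i
  fin_cases i
  · simp [refl, k, h0, b.repr_apply_apply]
  · simp [refl, k, h1, b.repr_apply_apply]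
  · simp [refl, k, h2, b.repr_apply_apply]

theorem normal {U : O3} (h : U * U = 1) (h1 : U ≠ 1) (h2 : U ≠ m1) :
    ∃ T : O3, (∀ y, T (U y) = refl (T y)) ∨ ∀ y, T (U y) = -refl (T y) := by
  have hm : (m1 * U) * (m1 * U) = 1 := by
    rw [mul_assoc, ← mul_assoc U, m1_comm U, mul_assoc, h, mul_one, m1_sq]
  obtain ⟨x, hx, hUx⟩ := (fixed_or h).resolve_right h2
  obtain ⟨y, hy, hUy⟩ := (fixed_or hm).resolve_right fun e => h1 (by simpa using e)
  rw [mul_app, m1_apply, neg_eq_iff_eq_neg] at hUy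
  have hxy : inner ℝ x y = 0 := by
    have e := U.inner_map_map x y
    rw [hUx, hUy, inner_neg_right] at e
    linarith
  obtain ⟨b, hb⟩ := Orthonormal.exists_orthonormalBasis_extension_of_card_eq (𝕜 := ℝ) (E := R3)
    (ι := Fin 3) (by simp) (v := ![y, x, 0]) (s := {0, 1}) (by
      rw [orthonormal_iff_ite]
      rintro ⟨i, rfl | rfl⟩ ⟨j, rfl | rfl⟩ <;>
        simp [hx, hy, hxy, real_inner_comm, Set.domRestrict, Subtype.ext_iff])
  have b0 : b 0 = y := hb 0 (by simp)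
  have b1 : b 1 = x := hb 1 (by simp)
  have o := orthonormal_iff_ite.1 b.orthonormal
  have e := b.sum_repr (U (b 2))
  have e0 : b.repr (U (b 2)) 0 = 0 := by
    rw [b.repr_apply_apply, ← U.inner_map_map, ← mul_app U U, h, one_app, b0, hUy, inner_neg_left,
      ← b0, o]
    simp
  have e1 : b.repr (U (b 2)) 1 = 0 := by
    rw [b.repr_apply_apply, ← U.inner_map_map, ← mul_app U U, h, one_app, b1, hUx, ← b1, o]
    simp
  rw [Fin.sum_univ_three, e0, e1, zero_smul, zero_smul, zero_add, zero_add] at e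
  have e2 : |b.repr (U (b 2)) 2| = 1 := by
    have e3 := congrArg norm e
    rwa [norm_smul, U.norm_map, b.orthonormal.1, mul_one, Real.norm_eq_abs] at e3
  rcases (abs_eq zero_le_one).1 e2 with e3 | e3 <;> rw [e3] at e
  · exact ⟨b.repr, Or.inl (normal_of h b (by rw [b0, hUy]) (by rw [b1, hUx])
      (by rw [← e, one_smul]))⟩
  · refine ⟨(b.reindex (Equiv.swap 0 1)).repr, Or.inr fun v => ?_⟩
    rw [← normal_of hm (b.reindex (Equiv.swap 0 1)), mul_app, m1_apply, map_neg, neg_neg]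
    · simp [b1, hUx, m1_apply]
    · simp [b0, hUy, m1_apply]
    · have e4 : (Equiv.swap (0 : Fin 3) 1) 2 = 2 := by decide
      simp [m1_apply, e4, ← e]

/-- A group of isometries acting freely: `P` lists the elements `(x, y) ↦ (U x, W y)` and `Q` the
elements `(x, y) ↦ (U y, W x)`. -/
structure Free (P Q : Set (O3 × O3)) : Prop where
  one : (1, 1) ∈ P
  pp : ∀ g ∈ P, ∀ h ∈ P, (g.1 * h.1, g.2 * h.2) ∈ P
  pq : ∀ g ∈ P, ∀ h ∈ Q, (g.1 * h.1, g.2 * h.2) ∈ Q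
  qp : ∀ g ∈ Q, ∀ h ∈ P, (g.1 * h.2, g.2 * h.1) ∈ Q
  qq : ∀ g ∈ Q, ∀ h ∈ Q, (g.1 * h.2, g.2 * h.1) ∈ P
  fp : ∀ g ∈ P, ∀ x y, ‖x‖ = 1 → ‖y‖ = 1 → g.1 x = x → g.2 y = y → g = (1, 1)
  fq : ∀ g ∈ Q, ∀ x y, ‖x‖ = 1 → ‖y‖ = 1 → g.1 y = x → g.2 x = y → False

/-- the orbit relation -/
def Rel (P Q : Set (O3 × O3)) (x y x' y' : R3) : Prop :=
  (∃ g ∈ P, g.1 x = x' ∧ g.2 y = y') ∨ ∃ g ∈ Q, g.1 y = x' ∧ g.2 x = y'

/-- the relation is one of the eight, in suitable coordinates -/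
def Good (R : R3 → R3 → R3 → R3 → Prop) : Prop :=
  ∃ (k : Fin 8) (S T : O3), ∀ x y x' y', R x y x' y' ↔ (S x', T y') ∈ orb refl k (S x) (T y)

variable {P Q : Set (O3 × O3)}

theorem Free.swap (F : Free P Q) : Free (Prod.swap ⁻¹' P) (Prod.swap ⁻¹' Q) where
  one := F.one
  pp g hg h hh := F.pp _ hg _ hh
  pq g hg h hh := F.pq _ hg _ hh
  qp g hg h hh := F.qp _ hg _ hh
  qq g hg h hh := F.qq _ hg _ hh
  fp g hg x y hx hy h1 h2 := Prod.swap_injective (F.fp _ hg y x hy hx h2 h1)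
  fq g hg x y hx hy h1 h2 := F.fq _ hg y x hy hx h2 h1

theorem rel_swap (x y x' y' : R3) :
    Rel (Prod.swap ⁻¹' P) (Prod.swap ⁻¹' Q) x y x' y' ↔ Rel P Q y x y' x' := by
  constructor
  · rintro (⟨g, h, h1, h2⟩ | ⟨g, h, h1, h2⟩)
    · exact Or.inl ⟨_, h, h2, h1⟩
    · exact Or.inr ⟨_, h, h2, h1⟩
  · rintro (⟨g, h, h1, h2⟩ | ⟨g, h, h1, h2⟩)
    · exact Or.inl ⟨g.swap, h, h2, h1⟩
    · exact Or.inr ⟨g.swap, h, h2, h1⟩

theorem Free.sq (F : Free P Q) {g : O3 × O3} (hg : g ∈ P) : g.1 * g.1 = 1 ∧ g.2 * g.2 = 1 := by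
  obtain ⟨x, hx, h1⟩ := fix_sq g.1
  obtain ⟨y, hy, h2⟩ := fix_sq g.2
  exact Prod.ext_iff.1 (F.fp _ (F.pp g hg g hg) x y hx hy h1 h2)

theorem Free.tri (F : Free P Q) {U W : O3} (hg : (U, W) ∈ P) :
    (U = 1 ∧ W = 1) ∨ U = m1 ∨ W = m1 := by
  rcases fixed_or (F.sq hg).1 with ⟨x, hx, h1⟩ | h
  · rcases fixed_or (F.sq hg).2 with ⟨y, hy, h2⟩ | h
    · exact Or.inl (Prod.ext_iff.1 (F.fp _ hg x y hx hy h1 h2))
    · exact Or.inr (Or.inr h)
  · exact Or.inr (Or.inl h)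

theorem Free.q_mul (F : Free P Q) {U W : O3} (hg : (U, W) ∈ Q) : U * W = m1 := by
  refine (fixed_or (F.sq (F.qq _ hg _ hg)).1).resolve_left fun ⟨x, hx, h⟩ => ?_
  exact F.fq _ hg x (W x) hx (by rw [W.norm_map, hx]) h rfl

theorem good_of {R : R3 → R3 → R3 → R3 → Prop} (k : Fin 8) (S T : O3)
    (h : ∀ x y x' y', R (S.symm x) (T.symm y) (S.symm x') (T.symm y') ↔ (x', y') ∈ orb refl k x y) :
    Good R :=
  ⟨k, S, T, fun x y x' y' => by simpa using h (S x) (T y) (S x') (T y')⟩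

theorem Free.good_q (F : Free P Q) {U W : O3} (hg : (U, W) ∈ Q) : Good (Rel P Q) := by
  have h1 := F.q_mul hg
  have h2 : W * U = m1 := F.swap.q_mul (U := W) (W := U) hg
  have hW : W = U⁻¹ * m1 := by rw [← h1, inv_mul_cancel_left]
  have hP : ∀ A B, (A, B) ∈ P → (A = 1 ∧ B = 1) ∨ (A = m1 ∧ B = m1) := by
    intro A B h
    have h3 : A * U * (B * W) = m1 := F.q_mul (F.pq _ h _ hg)
    rcases F.tri h with e | e | e
    · exact Or.inl e
    · refine Or.inr ⟨e, ?_⟩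
      rw [e, mul_assoc, mul_eq_left, ← mul_assoc, mul_eq_one_iff_eq_inv, hW, _root_.mul_inv_rev,
        inv_inv, inv_eq_of_mul_eq_one_right m1_sq, ← m1_comm] at h3
      exact mul_left_cancel h3
    · refine Or.inr ⟨?_, e⟩
      rw [e, ← m1_comm, ← mul_assoc, mul_eq_right, mul_assoc, h1] at h3
      rw [eq_inv_of_mul_eq_one_left h3, inv_eq_of_mul_eq_one_right m1_sq]
  have hm : (m1, m1) ∈ P := by simpa only [h1, h2] using F.qq _ hg _ hg
  have hQ : ∀ A B, (A, B) ∈ Q → (A = U ∧ B = W) ∨ (A = m1 * U ∧ B = m1 * W) := by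
    intro A B h
    rcases hP (A * W) (B * U) (F.qq _ h _ hg) with ⟨e, e'⟩ | ⟨e, e'⟩
    · right
      constructor
      · rw [eq_inv_of_mul_eq_one_left e, hW, _root_.mul_inv_rev, inv_inv,
          inv_eq_of_mul_eq_one_right m1_sq]
      · rw [eq_inv_of_mul_eq_one_left e', hW, m1_comm, ← mul_assoc, m1_sq, one_mul]
    · left
      exact ⟨mul_right_cancel (e.trans h1.symm), mul_right_cancel (e'.trans h2.symm)⟩
  have hg' : (m1 * U, m1 * W) ∈ Q := F.pq _ hm _ hg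
  have hW' : ∀ x, W x = U.symm (-x) := fun x => by rw [hW]; rfl
  refine good_of 7 1 U fun x y x' y' => ?_
  have s1 : ∀ v, (1 : O3).symm v = v := fun _ => rfl
  simp only [orb, Matrix.cons_val, Set.mem_insert_iff, Set.mem_singleton_iff, Prod.mk.injEq, s1]
  constructor
  · rintro (⟨⟨A, B⟩, h, a, b⟩ | ⟨⟨A, B⟩, h, a, b⟩)
    · rcases hP A B h with ⟨rfl, rfl⟩ | ⟨rfl, rfl⟩
      · exact Or.inl ⟨a.symm, U.symm.injective b.symm⟩
      · refine Or.inr (Or.inr (Or.inl ⟨a.symm, U.symm.injective ?_⟩))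
        rw [← b, map_neg, m1_apply]
    · rcases hQ A B h with ⟨rfl, rfl⟩ | ⟨rfl, rfl⟩
      · refine Or.inr (Or.inl ⟨by simpa using a.symm, A.symm.injective ?_⟩)
        rw [← b, hW']
      · refine Or.inr (Or.inr (Or.inr ⟨by simpa [m1_apply] using a.symm, U.symm.injective ?_⟩))
        rw [← b, mul_app, hW', m1_apply, map_neg, neg_neg]
  · rintro (⟨rfl, rfl⟩ | ⟨rfl, rfl⟩ | ⟨rfl, rfl⟩ | ⟨rfl, rfl⟩)
    · exact Or.inl ⟨_, F.one, rfl, rfl⟩
    · exact Or.inr ⟨_, hg, by simp, hW' _⟩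
    · exact Or.inl ⟨_, hm, rfl, by simp [m1_apply]⟩
    · exact Or.inr ⟨_, hg', by simp [m1_apply], by simp [m1_apply, hW']⟩

theorem rel_list (L : List (O3 × O3)) (hP : ∀ g, g ∈ P ↔ g ∈ L) (x y x' y' : R3) :
    Rel P ∅ x y x' y' ↔ (x', y') ∈ L.map fun g => (g.1 x, g.2 y) := by
  simp [Rel, hP]

/-- groups with at most one element besides the identity -/
theorem good_two {B : O3} (hB : B * B = 1) (hP : ∀ g, g ∈ P ↔ g ∈ [(1, 1), (m1, B)]) :
    Good (Rel P ∅) := by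
  by_cases h1 : B = 1
  · refine ⟨1, 1, 1, fun x y x' y' => ?_⟩
    simp [rel_list _ hP, orb, h1, m1_apply]
  by_cases h2 : B = m1
  · refine ⟨2, 1, 1, fun x y x' y' => ?_⟩
    simp [rel_list _ hP, orb, h2, m1_apply]
  obtain ⟨T, h | h⟩ := normal hB h1 h2
  · refine ⟨3, 1, T, fun x y x' y' => ?_⟩
    simp [rel_list _ hP, orb, m1_apply, ← h]
  · refine ⟨4, 1, T, fun x y x' y' => ?_⟩
    simp [rel_list _ hP, orb, m1_apply, ← h]

theorem good_four {B : O3} (hB : B * B = 1)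
    (hP : ∀ g, g ∈ P ↔ g ∈ [(1, 1), (m1, B), (1, m1), (m1, m1 * B)]) : Good (Rel P ∅) := by
  have n : ∀ (T : O3) (a b : R3), T a = -T b ↔ a = -b := fun T a b => by
    rw [← map_neg, T.injective.eq_iff]
  by_cases h1 : B = 1
  · refine ⟨5, 1, 1, fun x y x' y' => ?_⟩
    simp [rel_list _ hP, orb, h1, m1_apply]
  by_cases h2 : B = m1
  · refine ⟨5, 1, 1, fun x y x' y' => ?_⟩
    simp only [rel_list _ hP, orb, h2, m1_sq]
    simp [m1_apply]
    tauto
  obtain ⟨T, h | h⟩ := normal hB h1 h2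
  · refine ⟨6, 1, T, fun x y x' y' => ?_⟩
    simp [rel_list _ hP, orb, m1_apply, ← h, n]
  · refine ⟨6, 1, T, fun x y x' y' => ?_⟩
    have h' : ∀ y, refl (T y) = -T (B y) := fun y => by rw [h, neg_neg]
    simp [rel_list _ hP, orb, m1_apply, h', n]
    tauto

theorem Free.good_m (F : Free P ∅) (hm : (1, m1) ∈ P) :
    Good (Rel P ∅) ∨ Good fun x y x' y' => Rel P ∅ y x y' x' := by
  have k1 : ∀ B, (1, B) ∈ P → B = 1 ∨ B = m1 := fun B h => by
    rcases F.tri h with e | e | e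
    · exact Or.inl e.2
    · exact absurd e.symm m1_ne
    · exact Or.inr e
  have k2 : ∀ A B, (A, B) ∈ P → A = 1 ∨ A = m1 := fun A B h => by
    rcases F.tri h with e | e | e
    · exact Or.inl e.1
    · exact Or.inr e
    · have h2 := F.pp _ h _ hm
      rw [e, m1_sq, mul_one] at h2
      rcases F.tri h2 with e | e | e
      · exact Or.inl e.1
      · exact Or.inr e
      · exact absurd e.symm m1_ne
  by_cases h : ∃ B, (m1, B) ∈ P
  · obtain ⟨B, hB⟩ := h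
    refine Or.inl (good_four (F.sq hB).2 fun ⟨A, C⟩ => ⟨fun hg => ?_, fun hg => ?_⟩)
    · rcases k2 A C hg with rfl | rfl
      · rcases k1 C hg with rfl | rfl <;> simp
      · have h2 := F.pp _ hg _ hB
        rw [m1_sq] at h2
        have h3 : C = C * B * B := by rw [mul_assoc, (F.sq hB).2, mul_one]
        rcases k1 _ h2 with e | e <;> rw [h3, e] <;> simp
    · simp only [List.mem_cons, List.not_mem_nil, or_false] at hg
      rcases hg with e | e | e | e <;> rw [e]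
      exacts [F.one, hB, hm, by simpa only [one_mul] using F.pp _ hm _ hB]
  · right
    have h4 := good_two (P := Prod.swap ⁻¹' P) (B := 1) (mul_one 1) fun ⟨A, C⟩ =>
      ⟨fun hg => ?_, fun hg => ?_⟩
    · have s : ∀ x y x' y', Rel (Prod.swap ⁻¹' P) ∅ x y x' y' ↔ Rel P ∅ y x y' x' :=
        rel_swap (Q := ∅)
      simpa only [Good, s] using h4
    · rcases k2 C A hg with rfl | rfl
      · rcases k1 A hg with rfl | rfl <;> simp
      · exact absurd ⟨A, hg⟩ h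
    · simp only [List.mem_cons, List.not_mem_nil, or_false] at hg
      rcases hg with e | e <;> rw [e]
      exacts [F.one, hm]

theorem Free.good_one (F : Free P ∅) (h1 : (1, m1) ∉ P) (h2 : (m1, 1) ∉ P) {B : O3}
    (hB : (m1, B) ∈ P) : Good (Rel P ∅) := by
  refine good_two (F.sq hB).2 fun ⟨A, C⟩ => ⟨fun hg => ?_, fun hg => ?_⟩
  · have h3 : (A * m1, C * B) ∈ P := F.pp _ hg _ hB
    have c : ∀ {X Y : O3}, Y * Y = 1 → X * Y = 1 → X = Y := fun h h' =>
      mul_right_cancel (h'.trans h.symm)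
    rcases F.tri h3 with ⟨e, e'⟩ | e | e
    · simp [c m1_sq e, c (F.sq hB).2 e']
    · have e1 : A = 1 := mul_eq_right.1 e
      subst e1
      rcases F.tri hg with e | e | e
      · simp [e.2]
      · exact absurd e.symm m1_ne
      · exact absurd (e ▸ hg) h1
    · rcases F.tri hg with ⟨e1, e2⟩ | e1 | e1
      · simp [e1, e2]
      · rw [e, e1, m1_sq] at h3
        exact absurd h3 h1
      · have e2 : B = 1 := mul_eq_left.1 (e1 ▸ e)
        exact absurd (e2 ▸ hB) h2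
  · simp only [List.mem_cons, List.not_mem_nil, or_false] at hg
    rcases hg with e | e <;> rw [e]
    exacts [F.one, hB]

/-- the classification -/
theorem Free.good (F : Free P Q) :
    Good (Rel P Q) ∨ Good fun x y x' y' => Rel P Q y x y' x' := by
  rcases Q.eq_empty_or_nonempty with rfl | ⟨⟨U, W⟩, hg⟩
  swap
  · exact Or.inl (F.good_q hg)
  have F' : Free (Prod.swap ⁻¹' P) ∅ := F.swap
  have s : ∀ x y x' y', Rel (Prod.swap ⁻¹' P) ∅ x y x' y' ↔ Rel P ∅ y x y' x' :=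
    rel_swap (Q := ∅)
  by_cases h1 : (1, m1) ∈ P
  · exact F.good_m h1
  by_cases h2 : (m1, 1) ∈ P
  · refine (F'.good_m h2).symm.imp (fun h => ?_) fun h => ?_ <;> simpa only [Good, s] using h
  by_cases h3 : ∃ B, (m1, B) ∈ P
  · exact Or.inl (F.good_one h1 h2 h3.choose_spec)
  by_cases h4 : ∃ B, (B, m1) ∈ P
  · right
    simpa only [Good, s] using F'.good_one h2 h1 h4.choose_spec
  refine Or.inl ⟨0, 1, 1, fun x y x' y' => ?_⟩
  have hP : ∀ g, g ∈ P ↔ g ∈ [((1 : O3), (1 : O3))] := fun ⟨A, C⟩ => ⟨fun hg => ?_, fun hg => ?_⟩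
  · simp [rel_list _ hP, orb]
  · rcases F.tri hg with e | e | e
    · simp [e.1, e.2]
    · exact absurd ⟨C, e ▸ hg⟩ h3
    · exact absurd ⟨A, e ▸ hg⟩ h4
  · rw [List.mem_singleton.1 hg]
    exact F.one

end Vale.Agent.N211

end

section

/-! The eight groups are pairwise not conjugate. -/

set_option linter.unusedSimpArgs false

namespace Vale.Agent.N211

/-- relations between pairs of vectors -/
abbrev Rl : Type := R3 → R3 → R3 → R3 → Prop

/-- the orbit relation number `k` -/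
def rl (k : Fin 8) : Rl := fun x y x' y' => (x', y') ∈ orb refl k x y

/-- `R` is the pull back of `R'` by an isometry -/
def Eqv (R R' : Rl) : Prop :=
  ∃ U W : O3, (∀ x y x' y', ‖x‖ = 1 → ‖y‖ = 1 → ‖x'‖ = 1 → ‖y'‖ = 1 →
    (R x y x' y' ↔ R' (U x) (W y) (U x') (W y'))) ∨
  (∀ x y x' y', ‖x‖ = 1 → ‖y‖ = 1 → ‖x'‖ = 1 → ‖y'‖ = 1 →
    (R x y x' y' ↔ R' (U y) (W x) (U y') (W x')))

def I1 (R : Rl) : Prop :=
  ∃ x y a b, ‖x‖ = 1 ∧ ‖y‖ = 1 ∧ ‖a‖ = 1 ∧ ‖b‖ = 1 ∧ R x y a b ∧ ¬(a = x ∧ b = y)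

def I2 (R : Rl) : Prop :=
  ∃ x y a b c d, ‖x‖ = 1 ∧ ‖y‖ = 1 ∧ ‖a‖ = 1 ∧ ‖b‖ = 1 ∧ ‖c‖ = 1 ∧ ‖d‖ = 1 ∧ R x y a b ∧
    R x y c d ∧ ¬(a = x ∧ b = y) ∧ ¬(c = x ∧ d = y) ∧ ¬(a = c ∧ b = d)

def I3 (R : Rl) : Prop := ∀ x y, ‖x‖ = 1 → ‖y‖ = 1 → R x y (-x) (-y)

def I4 (R : Rl) : Prop :=
  (∀ x y, ‖x‖ = 1 → ‖y‖ = 1 → R x y (-x) y) ∨ ∀ x y, ‖x‖ = 1 → ‖y‖ = 1 → R x y x (-y)

def I5 (R : Rl) : Prop :=
  ∃ x y z, ‖x‖ = 1 ∧ ‖y‖ = 1 ∧ ‖z‖ = 1 ∧ inner ℝ y z = 0 ∧
    ((R x y (-x) y ∧ R x z (-x) z) ∨ (R y x y (-x) ∧ R z x z (-x)))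

variable {R R' : Rl}

theorem nn1 {x : R3} (h : ‖x‖ = 1) : ‖-x‖ = 1 := by rw [norm_neg, h]

theorem nu (U : O3) {x : R3} (h : ‖x‖ = 1) : ‖U x‖ = 1 := by rw [U.norm_map, h]

theorem Eqv.i1 (h : Eqv R R') (i : I1 R) : I1 R' := by
  obtain ⟨x, y, a, b, hx, hy, ha, hb, r, n⟩ := i
  obtain ⟨U, W, h | h⟩ := h
  · exact ⟨_, _, _, _, nu U hx, nu W hy, nu U ha, nu W hb, (h _ _ _ _ hx hy ha hb).1 r,
      by simpa using n⟩
  · exact ⟨_, _, _, _, nu U hy, nu W hx, nu U hb, nu W ha, (h _ _ _ _ hx hy ha hb).1 r,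
      by simpa [and_comm] using n⟩

theorem Eqv.i2 (h : Eqv R R') (i : I2 R) : I2 R' := by
  obtain ⟨x, y, a, b, c, d, hx, hy, ha, hb, hc, hd, r, r', n1, n2, n3⟩ := i
  obtain ⟨U, W, h | h⟩ := h
  · exact ⟨_, _, _, _, _, _, nu U hx, nu W hy, nu U ha, nu W hb, nu U hc, nu W hd,
      (h _ _ _ _ hx hy ha hb).1 r, (h _ _ _ _ hx hy hc hd).1 r', by simpa using n1,
      by simpa using n2, by simpa using n3⟩
  · exact ⟨_, _, _, _, _, _, nu U hy, nu W hx, nu U hb, nu W ha, nu U hd, nu W hc,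
      (h _ _ _ _ hx hy ha hb).1 r, (h _ _ _ _ hx hy hc hd).1 r', by simpa [and_comm] using n1,
      by simpa [and_comm] using n2, by simpa [and_comm] using n3⟩

theorem Eqv.i3 (h : Eqv R R') (i : I3 R) : I3 R' := by
  intro x y hx hy
  obtain ⟨U, W, h | h⟩ := h
  · have a := nu U.symm hx
    have b := nu W.symm hy
    simpa using (h _ _ _ _ a b (nn1 a) (nn1 b)).1 (i _ _ a b)
  · have a := nu U.symm hx
    have b := nu W.symm hy
    simpa using (h _ _ _ _ b a (nn1 b) (nn1 a)).1 (i _ _ b a)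

theorem Eqv.i4 (h : Eqv R R') (i : I4 R) : I4 R' := by
  obtain ⟨U, W, h | h⟩ := h
  · refine i.imp (fun i x y hx hy => ?_) fun i x y hx hy => ?_
    · have a := nu U.symm hx
      have b := nu W.symm hy
      simpa using (h _ _ _ _ a b (nn1 a) b).1 (i _ _ a b)
    · have a := nu U.symm hx
      have b := nu W.symm hy
      simpa using (h _ _ _ _ a b a (nn1 b)).1 (i _ _ a b)
  · refine (i.imp (fun i x y hx hy => ?_) fun i x y hx hy => ?_).symm
    · have a := nu U.symm hx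
      have b := nu W.symm hy
      simpa using (h _ _ _ _ b a (nn1 b) a).1 (i _ _ b a)
    · have a := nu U.symm hx
      have b := nu W.symm hy
      simpa using (h _ _ _ _ b a b (nn1 a)).1 (i _ _ b a)

theorem Eqv.i5 (h : Eqv R R') (i : I5 R) : I5 R' := by
  obtain ⟨x, y, z, hx, hy, hz, o, r | r⟩ := i
  · obtain ⟨U, W, h | h⟩ := h
    · exact ⟨_, _, _, nu U hx, nu W hy, nu W hz, by simpa using o, Or.inl
        ⟨by simpa using (h _ _ _ _ hx hy (nn1 hx) hy).1 r.1,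
          by simpa using (h _ _ _ _ hx hz (nn1 hx) hz).1 r.2⟩⟩
    · exact ⟨_, _, _, nu W hx, nu U hy, nu U hz, by simpa using o, Or.inr
        ⟨by simpa using (h _ _ _ _ hx hy (nn1 hx) hy).1 r.1,
          by simpa using (h _ _ _ _ hx hz (nn1 hx) hz).1 r.2⟩⟩
  · obtain ⟨U, W, h | h⟩ := h
    · exact ⟨_, _, _, nu W hx, nu U hy, nu U hz, by simpa using o, Or.inr
        ⟨by simpa using (h _ _ _ _ hy hx hy (nn1 hx)).1 r.1,
          by simpa using (h _ _ _ _ hz hx hz (nn1 hx)).1 r.2⟩⟩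
    · exact ⟨_, _, _, nu U hx, nu W hy, nu W hz, by simpa using o, Or.inl
        ⟨by simpa using (h _ _ _ _ hy hx hy (nn1 hx)).1 r.1,
          by simpa using (h _ _ _ _ hz hx hz (nn1 hx)).1 r.2⟩⟩

/-- test vectors -/
noncomputable def x0 : R3 := !₂[2 / 3, 1 / 3, 2 / 3]

noncomputable def y0 : R3 := !₂[1 / 3, 2 / 3, 2 / 3]

theorem x0n : ‖x0‖ = 1 := by
  rw [EuclideanSpace.norm_eq, Real.sqrt_eq_one, Fin.sum_univ_three]
  simp [x0]
  norm_num

theorem y0n : ‖y0‖ = 1 := by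
  rw [EuclideanSpace.norm_eq, Real.sqrt_eq_one, Fin.sum_univ_three]
  simp [y0]
  norm_num

theorem r3_ext {a b : R3} : a = b ↔ a 0 = b 0 ∧ a 1 = b 1 ∧ a 2 = b 2 := by
  refine ⟨fun h => by simp [h], fun h => ?_⟩
  ext i
  fin_cases i
  exacts [h.1, h.2.1, h.2.2]

theorem norm_refl (y : R3) : ‖refl y‖ = ‖y‖ := by
  simp [EuclideanSpace.norm_eq, Fin.sum_univ_three, refl]

theorem t3 (k : Fin 8) : I3 (rl k) ↔ k = 2 ∨ k = 5 ∨ k = 7 := by
  constructor
  · intro h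
    have h1 := h _ _ x0n y0n
    fin_cases k <;> simp [rl, orb, r3_ext, refl, x0, y0] at h1 ⊢ <;> norm_num at h1
  · rintro (rfl | rfl | rfl) x y - - <;> simp [rl, orb]

theorem t4 (k : Fin 8) : I4 (rl k) ↔ k = 1 ∨ k = 5 ∨ k = 6 := by
  constructor
  · intro h
    have h1 := h.imp (fun h => h _ _ x0n y0n) fun h => h _ _ x0n y0n
    fin_cases k <;> simp [rl, orb, r3_ext, refl, x0, y0] at h1 ⊢ <;> norm_num at h1
  · rintro (rfl | rfl | rfl)
    · exact Or.inl fun x y _ _ => by simp [rl, orb]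
    · exact Or.inl fun x y _ _ => by simp [rl, orb]
    · exact Or.inr fun x y _ _ => by simp [rl, orb]

theorem t1a : ¬I1 (rl 0) := by
  rintro ⟨x, y, a, b, -, -, -, -, r, n⟩
  exact n (by simpa [rl, orb] using r)

theorem t1b : I1 (rl 3) ∧ I1 (rl 4) :=
  ⟨⟨x0, y0, -x0, refl y0, x0n, y0n, nn1 x0n, by rw [norm_refl, y0n], by simp [rl, orb],
    fun h => neg_ne_unit x0n h.1⟩,
  ⟨x0, y0, -x0, -refl y0, x0n, y0n, nn1 x0n, by rw [norm_neg, norm_refl, y0n], by simp [rl, orb],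
    fun h => neg_ne_unit x0n h.1⟩⟩

theorem t2a : ¬I2 (rl 1) ∧ ¬I2 (rl 2) := by
  constructor <;>
  · rintro ⟨x, y, a, b, c, d, -, -, -, -, -, -, r, r', n1, n2, n3⟩
    simp only [rl, orb, Matrix.cons_val, Set.mem_insert_iff, Set.mem_singleton_iff,
      Prod.mk.injEq] at r r'
    have h1 := r.resolve_left n1
    have h2 := r'.resolve_left n2
    exact n3 ⟨h1.1.trans h2.1.symm, h1.2.trans h2.2.symm⟩

theorem t2b : I2 (rl 6) ∧ I2 (rl 7) :=
  ⟨⟨x0, y0, x0, -y0, -x0, refl y0, x0n, y0n, x0n, nn1 y0n, nn1 x0n, by rw [norm_refl, y0n],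
    by simp [rl, orb], by simp [rl, orb], fun h => neg_ne_unit y0n h.2,
    fun h => neg_ne_unit x0n h.1, fun h => neg_ne_unit x0n h.1.symm⟩,
  ⟨x0, y0, -x0, -y0, y0, -x0, x0n, y0n, nn1 x0n, nn1 y0n, y0n, nn1 x0n,
    by simp [rl, orb], by simp [rl, orb], fun h => neg_ne_unit x0n h.1,
    by norm_num [r3_ext, x0, y0], by norm_num [r3_ext, x0, y0]⟩⟩

theorem t5a : I5 (rl 3) := by
  refine ⟨x0, EuclideanSpace.single 1 1, EuclideanSpace.single 2 1, x0n, by simp, by simp,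
    by simp [EuclideanSpace.inner_single_left], Or.inl ⟨?_, ?_⟩⟩ <;>
  simp [rl, orb, r3_ext, refl]

theorem t5b : ¬I5 (rl 4) := by
  rintro ⟨x, y, z, hx, hy, hz, o, r | r⟩
  · have k : ∀ y : R3, rl 4 x y (-x) y → y 1 = 0 ∧ y 2 = 0 := by
      intro y h
      simp only [rl, orb, Matrix.cons_val, Set.mem_insert_iff, Set.mem_singleton_iff,
        Prod.mk.injEq] at h
      have h1 := r3_ext.1 (h.resolve_left fun e => neg_ne_unit hx e.1).2
      simp [refl] at h1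
      constructor <;> linarith [h1.1, h1.2]
    have k1 := k y r.1
    have k2 := k z r.2
    rw [EuclideanSpace.norm_eq, Real.sqrt_eq_one, Fin.sum_univ_three] at hy hz
    rw [PiLp.inner_apply, Fin.sum_univ_three] at o
    simp [k1.1, k1.2, k2.1, k2.2] at hy hz o
    rcases o with o | o
    · simp [o] at hz
    · simp [o] at hy
  · have h := r.1
    simp only [rl, orb, Matrix.cons_val, Set.mem_insert_iff, Set.mem_singleton_iff,
      Prod.mk.injEq] at h
    rcases h with e | e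
    · exact neg_ne_unit hx e.2
    · exact neg_ne_unit hy e.1.symm

theorem rl_unique {k l : Fin 8} (h : Eqv (rl k) (rl l)) (h' : Eqv (rl l) (rl k)) : k = l := by
  have e1 : I1 (rl k) ↔ I1 (rl l) := ⟨h.i1, h'.i1⟩
  have e2 : I2 (rl k) ↔ I2 (rl l) := ⟨h.i2, h'.i2⟩
  have e3 : I3 (rl k) ↔ I3 (rl l) := ⟨h.i3, h'.i3⟩
  have e4 : I4 (rl k) ↔ I4 (rl l) := ⟨h.i4, h'.i4⟩
  have e5 : I5 (rl k) ↔ I5 (rl l) := ⟨h.i5, h'.i5⟩
  rw [t3, t3] at e3
  rw [t4, t4] at e4
  clear h h'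
  fin_cases k <;> fin_cases l <;> simp at e3 e4 ⊢ <;>
    simp [t1a, t1b.1, t1b.2, t2a.1, t2a.2, t2b.1, t2b.2, t5a, t5b] at e1 e2 e5

end Vale.Agent.N211

end
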