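import Vale.Agent.P211W98.Sph
import Vale.Agent.N211.Grp
import Vale.Agent.P211W98.Main2
import Vale.Agent.N211.Curv
import Vale.Agent.P216.H347.SCS

section

/-! The Riemannian isometry onto a product of spheres which is given by distance coordinates. -/

set_option maxSynthPendingDepth 3
set_option linter.unusedSectionVars false

namespace Vale.Agent.N211

open scoped Manifold ContDiff Topology
open Bundle Filter Vale.Agent.P234 InnerProductGeometry Vale.Agent.P211W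

variable {E : Type} [NormedAddCommGroup E] [NormedSpace ℝ E] [FiniteDimensional ℝ E]
  {N : Type} [MetricSpace N] [ChartedSpace E N] [IsManifold 𝓘(ℝ, E) ∞ N]
  [RiemannianBundle fun p : N => TangentSpace 𝓘(ℝ, E) p]
  [IsContMDiffRiemannianBundle 𝓘(ℝ, E) ∞ E fun p : N => TangentSpace 𝓘(ℝ, E) p]
  {e : ∀ x : N, TangentSpace 𝓘(ℝ, E) x → N}

theorem isoS2S2 [CompactSpace N] [Nonempty N] (F : Facts e) (hdim : Module.finrank ℝ E = 4)
    {r : ℝ} (hr : 0 < r) (A B : N → EuclideanSpace ℝ (Fin (2 + 1))) (a1 : ∀ x, ‖A x‖ = 1)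
    (b1 : ∀ x, ‖B x‖ = 1)
    (h2 : ∀ x y, dist x y ^ 2 = r ^ 2 * angle (A x) (A y) ^ 2 + r ^ 2 * angle (B x) (B y) ^ 2)
    (h3 : ∀ a b, ‖a‖ = 1 → ‖b‖ = 1 → ∃ x, A x = a ∧ B x = b) :
    ∃ Φ : N ≃ₘ^∞⟮𝓘(ℝ, E), (𝓡 2).prod (𝓡 2)⟯ (Sph 2 × Sph 2),
      (∀ x, ((Φ x).1 : EuclideanSpace ℝ (Fin (2 + 1))) = A x ∧
        ((Φ x).2 : EuclideanSpace ℝ (Fin (2 + 1))) = B x) ∧
      ∀ (x : N) (v w : TangentSpace 𝓘(ℝ, E) x), inner ℝ v w =
        r ^ 2 * pb E N (fun y => (Φ y).1) x v w + r ^ 2 * pb E N (fun y => (Φ y).2) x v w := by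
  have : Fact (Module.finrank ℝ (EuclideanSpace ℝ (Fin (2 + 1))) = 2 + 1) :=
    ⟨finrank_euclideanSpace_fin⟩
  have h4 : ∀ z : EuclideanSpace ℝ (Fin (2 + 1)) × EuclideanSpace ℝ (Fin (2 + 1)),
      ∃ x, z.1 ≠ 0 ∧ z.2 ≠ 0 → A x = ‖z.1‖⁻¹ • z.1 ∧ B x = ‖z.2‖⁻¹ • z.2 := by
    intro z
    by_cases hz : z.1 ≠ 0 ∧ z.2 ≠ 0
    · exact (h3 _ _ (norm_nrm hz.1) (norm_nrm hz.2)).imp fun x hx _ => hx
    · exact ⟨Classical.arbitrary N, fun h => (hz h).elim⟩
  choose P hP using h4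
  have a0 : ∀ x, A x ≠ 0 := fun x => norm_ne_zero_iff.1 (by rw [a1]; exact one_ne_zero)
  have b0 : ∀ x, B x ≠ 0 := fun x => norm_ne_zero_iff.1 (by rw [b1]; exact one_ne_zero)
  have k1 : ∀ z, z.1 ≠ 0 ∧ z.2 ≠ 0 → ∀ y, dist (P z) y ^ 2
      = r ^ 2 * angle z.1 (A y) ^ 2 + r ^ 2 * angle z.2 (B y) ^ 2 := by
    intro z hz y
    rw [h2, (hP z hz).1, (hP z hz).2, angle_nrm hz.1, angle_nrm hz.2]
  have k3 : ∀ x, P (A x, B x) = x := by
    intro x
    rw [← dist_eq_zero, ← pow_eq_zero_iff two_ne_zero, k1 _ ⟨a0 x, b0 x⟩, angle_self (a0 x),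
      angle_self (b0 x)]
    simp
  have ka : ∀ x y, r * angle (A x) (A y) ≤ dist x y := fun x y =>
    (sq_le_sq₀ (mul_nonneg hr.le (angle_nonneg _ _)) dist_nonneg).1 (by
      rw [h2, mul_pow]
      exact le_add_of_nonneg_right (by positivity))
  have kb : ∀ x y, r * angle (B x) (B y) ≤ dist x y := fun x y =>
    (sq_le_sq₀ (mul_nonneg hr.le (angle_nonneg _ _)) dist_nonneg).1 (by
      rw [h2, mul_pow]
      exact le_add_of_nonneg_left (by positivity))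
  have hne : ∀ x, ∀ᶠ z in 𝓝 (A x, B x), z.1 ≠ 0 ∧ z.2 ≠ 0 := fun x =>
    (continuous_fst.continuousAt.eventually_ne (a0 x)).and
      (continuous_snd.continuousAt.eventually_ne (b0 x))
  obtain ⟨η, e0, e1⟩ := angle_smooth (V := EuclideanSpace ℝ (Fin (2 + 1)))
  have k6 : ∀ x, ContMDiffAt
      𝓘(ℝ, EuclideanSpace ℝ (Fin (2 + 1)) × EuclideanSpace ℝ (Fin (2 + 1))) 𝓘(ℝ, E) ∞ P
        (A x, B x) ∧ ∀ v : EuclideanSpace ℝ (Fin (2 + 1)) × EuclideanSpace ℝ (Fin (2 + 1)),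
      inner ℝ (mfderiv 𝓘(ℝ, EuclideanSpace ℝ (Fin (2 + 1)) × EuclideanSpace ℝ (Fin (2 + 1)))
          𝓘(ℝ, E) P (A x, B x) v)
        (mfderiv 𝓘(ℝ, EuclideanSpace ℝ (Fin (2 + 1)) × EuclideanSpace ℝ (Fin (2 + 1)))
          𝓘(ℝ, E) P (A x, B x) v) = r ^ 2 * fs ℝ (A x) v.1 v.1 + r ^ 2 * fs ℝ (B x) v.2 v.2 := by
    intro x
    obtain ⟨m1, m2⟩ := ms F (P := P) (z₀ := (A x, B x)) (by
      filter_upwards [Metric.ball_mem_nhds (P (A x, B x)) (mul_pos hr e0)] with y hy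
      rw [Metric.mem_ball, dist_comm, k3] at hy
      have h5 := e1 _ (A y) (a0 x) (a0 y) (lt_of_mul_lt_mul_left ((ka x y).trans_lt hy) hr.le)
      have h6 := e1 _ (B y) (b0 x) (b0 y) (lt_of_mul_lt_mul_left ((kb x y).trans_lt hy) hr.le)
      have h7 := ((contDiffAt_const (c := r ^ 2)).mul
        (ContDiffAt.comp (f := Prod.fst) (A x, B x) h5 contDiffAt_fst)).add
        ((contDiffAt_const (c := r ^ 2)).mul
          (ContDiffAt.comp (f := Prod.snd) (A x, B x) h6 contDiffAt_snd))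
      refine h7.congr_of_eventuallyEq ?_
      filter_upwards [hne x] with z hz
      exact k1 z hz y)
    refine ⟨m1, fun v => m2 v _ ((((angle_lim (a0 x) v.1).const_mul (r ^ 2)).add
      ((angle_lim (b0 x) v.2).const_mul (r ^ 2))).congr' ?_)⟩
    have h5 : Continuous fun t : ℝ => (A x, B x) + t • v := by fun_prop
    have h6 : Tendsto (fun t : ℝ => (A x, B x) + t • v) (𝓝 0) (𝓝 (A x, B x)) := by
      simpa using h5.tendsto 0
    filter_upwards [nhdsWithin_le_nhds (h6.eventually (hne x))] with t ht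
    rw [k3, k1 _ ht, add_div, mul_div_assoc, mul_div_assoc]
    rfl
  obtain ⟨l1, l2⟩ := lift_smooth (E := E) (K := ℝ × ℝ) (c := fun z => (‖z.1‖ ^ 2, ‖z.2‖ ^ 2))
    (Z := fun x => (A x, B x)) (by simp [hdim]) (fun x => (k6 x).1)
    ((contDiff_fst.norm_sq ℝ).prodMk (contDiff_snd.norm_sq ℝ)) (fun x v c1 c2 => by
      have c3 := (k6 x).2 v
      rw [c1, inner_zero_left] at c3
      rw [(((hasFDerivAt_fst (p := (A x, B x))).norm_sq).prodMk
        ((hasFDerivAt_snd (p := (A x, B x))).norm_sq)).fderiv] at c2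
      have c4 := fs_nonneg (A x) v.1
      have c5 := fs_nonneg (B x) v.2
      have c6 : 0 < r ^ 2 := by positivity
      refine Prod.ext (eq_zero_of_fs (a1 x) ?_ (by simpa using congrArg Prod.fst c2))
        (eq_zero_of_fs (b1 x) ?_ (by simpa using congrArg Prod.snd c2)) <;> nlinarith)
    ((cont_of_angle a1 hr ka).prodMk (cont_of_angle b1 hr kb)) k3
    (fun x y => by simp only [a1, b1])
  have la : ContMDiff 𝓘(ℝ, E) 𝓘(ℝ, EuclideanSpace ℝ (Fin (2 + 1))) ∞ A :=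
    contDiff_fst.contMDiff.comp l1
  have lb : ContMDiff 𝓘(ℝ, E) 𝓘(ℝ, EuclideanSpace ℝ (Fin (2 + 1))) ∞ B :=
    contDiff_snd.contMDiff.comp l1
  have ma : ∀ x, A x ∈ Metric.sphere (0 : EuclideanSpace ℝ (Fin (2 + 1))) 1 := fun x =>
    mem_sphere_zero_iff_norm.2 (a1 x)
  have mb : ∀ x, B x ∈ Metric.sphere (0 : EuclideanSpace ℝ (Fin (2 + 1))) 1 := fun x =>
    mem_sphere_zero_iff_norm.2 (b1 x)
  have m2 : ∀ u : Sph 2 × Sph 2, A (P (u.1, u.2)) = u.1 ∧ B (P (u.1, u.2)) = u.2 := by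
    intro u
    have h5 := hP (u.1, u.2) ⟨ne_zero_of_mem_unit_sphere u.1, ne_zero_of_mem_unit_sphere u.2⟩
    simpa only [norm_eq_of_mem_sphere, inv_one, one_smul] using h5
  refine ⟨⟨⟨fun x => (Set.codRestrict A _ ma x, Set.codRestrict B _ mb x),
    fun u => P (u.1, u.2), k3, fun u => Prod.ext (Subtype.ext (m2 u).1) (Subtype.ext (m2 u).2)⟩,
    (la.codRestrict_sphere ma).prodMk (lb.codRestrict_sphere mb), fun u => ?_⟩,
    fun x => ⟨rfl, rfl⟩, fun x => ?_⟩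
  · refine ContMDiffAt.comp (g := P) u ?_
      (((contMDiff_coe_sphere.comp contMDiff_fst).prodMk_space
        (contMDiff_coe_sphere.comp contMDiff_snd)) u)
    have h5 := (k6 (P (u.1, u.2))).1
    rwa [(m2 u).1, (m2 u).2] at h5
  · refine polar_of (A := fun v => v) (fun _ _ => rfl) (fun v w => ?_) fun v => ?_
    · rw [pb_polar, pb_polar]
      ring
    · have d1 := (l1 x).mdifferentiableAt (by simp)
      have d2 : mvfderiv 𝓘(ℝ, E) A x v = (mvfderiv 𝓘(ℝ, E) (fun x => (A x, B x)) x v).1 := by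
        have d4 := mv_comp (f := fun x => (A x, B x)) (x := x) (hasFDerivAt_fst (𝕜 := ℝ)) d1 v
        exact d4
      have d3 : mvfderiv 𝓘(ℝ, E) B x v = (mvfderiv 𝓘(ℝ, E) (fun x => (A x, B x)) x v).2 := by
        have d4 := mv_comp (f := fun x => (A x, B x)) (x := x) (hasFDerivAt_snd (𝕜 := ℝ)) d1 v
        exact d4
      rw [← inner_tr (k3 x) _ v (l2 x v), (k6 x).2, ← d2, ← d3,
        fs_unit ((la x).mdifferentiableAt (by simp)) a1,
        fs_unit ((lb x).mdifferentiableAt (by simp)) b1]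
      rfl

end Vale.Agent.N211

end

section

/-! Quotients of the product of two round two-spheres. -/

set_option maxSynthPendingDepth 3
set_option linter.unusedSectionVars false

namespace Vale.Agent.N211

open scoped Manifold ContDiff Topology
open Bundle Filter InnerProductGeometry Vale.Agent.P211Z Vale.Agent.P211.HK Vale.Agent.P211Y

/-- distance coordinates -/
structure Coord {N : Type} [MetricSpace N] (r : ℝ) (A B : N → R3) : Prop where
  a1 : ∀ x, ‖A x‖ = 1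
  b1 : ∀ x, ‖B x‖ = 1
  d : ∀ x y, dist x y ^ 2 = r ^ 2 * angle (A x) (A y) ^ 2 + r ^ 2 * angle (B x) (B y) ^ 2
  surj : ∀ a b, ‖a‖ = 1 → ‖b‖ = 1 → ∃ x, A x = a ∧ B x = b

section metric

variable {N : Type} [MetricSpace N] {r : ℝ} {A B A' B' : N → R3}

theorem coord_of (h : IsRoundS2S2 N r) : ∃ A B : N → R3, Coord r A B := by
  obtain ⟨A, B, h1, h2, h3, h4⟩ := h
  refine ⟨A, B, h1, h2, fun x y => ?_, h4⟩
  rw [h3, Real.sq_sqrt (by positivity), P211W.angle_unit (h1 x) (h1 y),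
    P211W.angle_unit (h2 x) (h2 y), mul_pow, mul_pow]

theorem Coord.inj (C : Coord r A B) {x y : N} (h1 : A x = A y) (h2 : B x = B y) : x = y := by
  rw [← dist_eq_zero, ← pow_eq_zero_iff two_ne_zero, C.d, h1, h2, angle_self (ne0 (C.a1 y)),
    angle_self (ne0 (C.b1 y))]
  simp

theorem Coord.swap (C : Coord r A B) : Coord r B A :=
  ⟨C.b1, C.a1, fun x y => (C.d x y).trans (add_comm _ _),
    fun a b ha hb => (C.surj b a hb ha).imp fun _ h => h.symm⟩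

theorem Coord.map (C : Coord r A B) (S T : O3) : Coord r (fun x => S (A x)) fun x => T (B x) := by
  refine ⟨fun x => by rw [S.norm_map, C.a1], fun x => by rw [T.norm_map, C.b1], fun x y => ?_,
    fun a b ha hb => ?_⟩
  · rw [C.d]
    exact congrArg₂ (fun s t => r ^ 2 * s ^ 2 + r ^ 2 * t ^ 2)
      (S.toLinearIsometry.angle_map _ _).symm (T.toLinearIsometry.angle_map _ _).symm
  · obtain ⟨x, h1, h2⟩ := C.surj (S.symm a) (T.symm b) (by rw [S.symm.norm_map, ha])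
      (by rw [T.symm.norm_map, hb])
    exact ⟨x, by rw [h1, S.apply_symm_apply], by rw [h2, T.apply_symm_apply]⟩

theorem Coord.comp (C : Coord r A B) {γ : N → N} (hγ : Isometry γ) (x y : N) :
    dist x y ^ 2 = r ^ 2 * angle (A (γ x)) (A (γ y)) ^ 2 + r ^ 2 * angle (B (γ x)) (B (γ y)) ^ 2 := by
  rw [← C.d, hγ.dist_eq]

/-- two systems of distance coordinates differ by a linear map -/
theorem Coord.compare (C : Coord r A B) (hr : 0 < r) (a1 : ∀ x, ‖A' x‖ = 1) (b1 : ∀ x, ‖B' x‖ = 1)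
    (d : ∀ x y, dist x y ^ 2 = r ^ 2 * angle (A' x) (A' y) ^ 2 + r ^ 2 * angle (B' x) (B' y) ^ 2) :
    (∃ U W : O3, ∀ x, A' x = U (A x) ∧ B' x = W (B x)) ∨
    (∃ U W : O3, ∀ x, A' x = U (B x) ∧ B' x = W (A x)) := by
  obtain ⟨y₀, h₀⟩ := exists_norm_eq R3 zero_le_one
  obtain ⟨n₀, -⟩ := C.surj y₀ y₀ h₀ h₀
  have h4 : ∀ a b : R3, ∃ x, ‖a‖ = 1 → ‖b‖ = 1 → A x = a ∧ B x = b := by
    intro a b
    by_cases h : ‖a‖ = 1 ∧ ‖b‖ = 1
    · exact (C.surj a b h.1 h.2).imp fun x hx _ _ => hx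
    · exact ⟨n₀, fun h1 h2 => (h ⟨h1, h2⟩).elim⟩
  choose p hp using h4
  have k : ∀ x, p (A x) (B x) = x := fun x =>
    C.inj (hp _ _ (C.a1 x) (C.b1 x)).1 (hp _ _ (C.a1 x) (C.b1 x)).2
  refine (split (a := fun a b => A' (p a b)) (b := fun a b => B' (p a b)) (fun _ _ _ _ => a1 _)
    (fun _ _ _ _ => b1 _) fun x y x' y' hx hy hx' hy' => ?_).imp ?_ ?_
  · have h := (d (p x y) (p x' y')).symm.trans (C.d _ _)
    rw [(hp _ _ hx hy).1, (hp _ _ hx hy).2, (hp _ _ hx' hy').1, (hp _ _ hx' hy').2, ← mul_add,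
      ← mul_add] at h
    exact mul_left_cancel₀ (by positivity) h
  · rintro ⟨U, W, h⟩
    exact ⟨U, W, fun x => by simpa only [k] using h _ _ (C.a1 x) (C.b1 x)⟩
  · rintro ⟨U, W, h⟩
    exact ⟨U, W, fun x => by simpa only [k] using h _ _ (C.a1 x) (C.b1 x)⟩

theorem ext_unit {U : O3} (h : ∀ x, ‖x‖ = 1 → U x = x) : U = 1 := by
  ext1 x
  by_cases hx : x = 0
  · rw [hx, map_zero, map_zero]
  · have h1 := h _ (norm_smul_inv_norm (𝕜 := ℝ) hx)
    rw [map_smul] at h1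
    exact smul_right_injective _ (by simpa using hx) h1

variable {M : Type} [MetricSpace M] {φ : N → M}

theorem quotient_S2S2 (hφ : MetricCover φ) (hr : 0 < r) (C : Coord r A B) :
    ∃ (k : Fin 8) (A' B' : N → R3), Coord r A' B' ∧
      ∀ a b, φ a = φ b ↔ (A' b, B' b) ∈ orb refl k (A' a) (B' a) := by
  let P : Set (O3 × O3) := {g | ∃ γ : N → N, Isometry γ ∧ φ ∘ γ = φ ∧
    ∀ x, A (γ x) = g.1 (A x) ∧ B (γ x) = g.2 (B x)}
  let Q : Set (O3 × O3) := {g | ∃ γ : N → N, Isometry γ ∧ φ ∘ γ = φ ∧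
    ∀ x, A (γ x) = g.1 (B x) ∧ B (γ x) = g.2 (A x)}
  have cmp : ∀ {γ δ : N → N}, φ ∘ γ = φ → φ ∘ δ = φ → φ ∘ (γ ∘ δ) = φ := fun h h' => by
    rw [← Function.comp_assoc, h, h']
  obtain ⟨y₀, h₀⟩ := exists_norm_eq R3 zero_le_one
  have F : Free P Q := by
    refine ⟨⟨id, isometry_id, rfl, fun x => ⟨rfl, rfl⟩⟩, ?_, ?_, ?_, ?_, ?_, ?_⟩
    iterate 4
      rintro g ⟨γ, g1, g2, g3⟩ h ⟨δ, h1, h2, h3⟩
      refine ⟨γ ∘ δ, g1.comp h1, cmp g2 h2, fun x => ?_⟩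
      simp only [Function.comp_apply, mul_app, (g3 _).1, (g3 _).2, (h3 _).1, (h3 _).2, and_self]
    · rintro g ⟨γ, g1, g2, g3⟩ x y hx hy e1 e2
      obtain ⟨n, rfl, rfl⟩ := C.surj x y hx hy
      have h := hφ.rigid γ g1.continuous g2 n (C.inj ((g3 n).1.trans e1) ((g3 n).2.trans e2))
      subst h
      refine Prod.ext (ext_unit fun x hx => ?_) (ext_unit fun x hx => ?_)
      · obtain ⟨m, rfl, -⟩ := C.surj x y₀ hx h₀
        exact (g3 m).1.symm
      · obtain ⟨m, -, rfl⟩ := C.surj y₀ x h₀ hx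
        exact (g3 m).2.symm
    · rintro g ⟨γ, g1, g2, g3⟩ x y hx hy e1 e2
      obtain ⟨n, rfl, rfl⟩ := C.surj x y hx hy
      have h := hφ.rigid γ g1.continuous g2 n (C.inj ((g3 n).1.trans e1) ((g3 n).2.trans e2))
      subst h
      obtain ⟨m, m1, m2⟩ := C.surj (-A n) (B n) (by rw [norm_neg, hx]) hy
      have h := (g3 m).1
      rw [id, m1, m2, e1] at h
      exact neg_ne_unit hx h
  have R : ∀ a b, φ a = φ b ↔ Rel P Q (A a) (B a) (A b) (B b) := by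
    intro a b
    constructor
    · intro h
      obtain ⟨γ, g1, g2, rfl⟩ := hφ.deck a b h
      rcases C.compare hr (fun x => C.a1 (γ x)) (fun x => C.b1 (γ x)) (C.comp g1) with
        ⟨U, W, h⟩ | ⟨U, W, h⟩
      · exact Or.inl ⟨(U, W), ⟨γ, g1, g2, h⟩, (h a).1.symm, (h a).2.symm⟩
      · exact Or.inr ⟨(U, W), ⟨γ, g1, g2, h⟩, (h a).1.symm, (h a).2.symm⟩
    · rintro (⟨g, ⟨γ, -, g2, g3⟩, e1, e2⟩ | ⟨g, ⟨γ, -, g2, g3⟩, e1, e2⟩) <;>
        rw [← C.inj ((g3 a).1.trans e1) ((g3 a).2.trans e2)] <;>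
        exact (congrFun g2 a).symm
  rcases F.good with ⟨k, S, T, h⟩ | ⟨k, S, T, h⟩
  · exact ⟨k, _, _, C.map S T, fun a b => (R a b).trans (h _ _ _ _)⟩
  · exact ⟨k, _, _, C.swap.map S T, fun a b => (R a b).trans (h _ _ _ _)⟩

end metric

section smooth

variable {E : Type} [NormedAddCommGroup E] [NormedSpace ℝ E]
  {N : Type} [TopologicalSpace N] [ChartedSpace E N]
  {H : Type} [NormedAddCommGroup H] [NormedSpace ℝ H] {S : Type} [TopologicalSpace S]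
  [ChartedSpace H S] {V : Type} [NormedAddCommGroup V] [InnerProductSpace ℝ V] {j : S → V}

theorem pb_fst (hj : MDifferentiable 𝓘(ℝ, H) 𝓘(ℝ, V) j) {θ : N → S × S} {x : N}
    (hθ : MDifferentiableAt 𝓘(ℝ, E) (𝓘(ℝ, H).prod 𝓘(ℝ, H)) θ x) (v w : TangentSpace 𝓘(ℝ, E) x) :
    pb E N (fun y => j (θ y).1) x v w = pb H S j (θ x).1
      (mfderiv 𝓘(ℝ, E) (𝓘(ℝ, H).prod 𝓘(ℝ, H)) θ x v).1
      (mfderiv 𝓘(ℝ, E) (𝓘(ℝ, H).prod 𝓘(ℝ, H)) θ x w).1 := by
  have k : ∀ u, mvfderiv 𝓘(ℝ, E) (fun y => j (θ y).1) x u = mvfderiv 𝓘(ℝ, H) j (θ x).1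
      (mfderiv 𝓘(ℝ, E) (𝓘(ℝ, H).prod 𝓘(ℝ, H)) θ x u).1 := by
    intro u
    have h0 : MDifferentiableAt 𝓘(ℝ, E) 𝓘(ℝ, H) (Prod.fst ∘ θ) x := hθ.fst
    have h1 := mfderiv_comp_apply x (hj _) h0 u
    rw [mfderiv_comp_apply x mdifferentiableAt_fst hθ, mfderiv_fst] at h1
    exact h1
  unfold pb
  rw [k, k]

theorem pb_snd (hj : MDifferentiable 𝓘(ℝ, H) 𝓘(ℝ, V) j) {θ : N → S × S} {x : N}
    (hθ : MDifferentiableAt 𝓘(ℝ, E) (𝓘(ℝ, H).prod 𝓘(ℝ, H)) θ x) (v w : TangentSpace 𝓘(ℝ, E) x) :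
    pb E N (fun y => j (θ y).2) x v w = pb H S j (θ x).2
      (mfderiv 𝓘(ℝ, E) (𝓘(ℝ, H).prod 𝓘(ℝ, H)) θ x v).2
      (mfderiv 𝓘(ℝ, E) (𝓘(ℝ, H).prod 𝓘(ℝ, H)) θ x w).2 := by
  have k : ∀ u, mvfderiv 𝓘(ℝ, E) (fun y => j (θ y).2) x u = mvfderiv 𝓘(ℝ, H) j (θ x).2
      (mfderiv 𝓘(ℝ, E) (𝓘(ℝ, H).prod 𝓘(ℝ, H)) θ x u).2 := by
    intro u
    have h0 : MDifferentiableAt 𝓘(ℝ, E) 𝓘(ℝ, H) (Prod.snd ∘ θ) x := hθ.snd
    have h1 := mfderiv_comp_apply x (hj _) h0 u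
    rw [mfderiv_comp_apply x mdifferentiableAt_snd hθ, mfderiv_snd] at h1
    exact h1
  unfold pb
  rw [k, k]

variable {M : Type} [TopologicalSpace M] [ChartedSpace E M]
  [RiemannianBundle fun p : M => TangentSpace 𝓘(ℝ, E) p]

theorem inner_comp {G : Type} [NormedAddCommGroup G] [NormedSpace ℝ G] {K : Type}
    [TopologicalSpace K] {I : ModelWithCorners ℝ G K} {T : Type} [TopologicalSpace T]
    [ChartedSpace K T] {ψ : T → M} {θ : N → T} {φ : N → M} (h : ψ ∘ θ = φ) {x : N}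
    (hψ : MDifferentiableAt I 𝓘(ℝ, E) ψ (θ x)) (hθ : MDifferentiableAt 𝓘(ℝ, E) I θ x)
    (v w : TangentSpace 𝓘(ℝ, E) x) :
    inner ℝ (mfderiv I 𝓘(ℝ, E) ψ (θ x) (mfderiv 𝓘(ℝ, E) I θ x v))
      (mfderiv I 𝓘(ℝ, E) ψ (θ x) (mfderiv 𝓘(ℝ, E) I θ x w)) =
    inner ℝ (mfderiv 𝓘(ℝ, E) 𝓘(ℝ, E) φ x v) (mfderiv 𝓘(ℝ, E) 𝓘(ℝ, E) φ x w) := by
  subst h
  rw [mfderiv_comp_apply x hψ hθ, mfderiv_comp_apply x hψ hθ]

variable [RiemannianBundle fun p : N => TangentSpace 𝓘(ℝ, E) p]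

theorem isoQuot_of (hj : MDifferentiable 𝓘(ℝ, H) 𝓘(ℝ, V) j) {φ : N → M}
    (hφ : IsRiemannianCovering E φ) {r : ℝ} {O : V → V → Set (V × V)}
    (Φ : N ≃ₘ^∞⟮𝓘(ℝ, E), 𝓘(ℝ, H).prod 𝓘(ℝ, H)⟯ (S × S))
    (h1 : ∀ (x : N) (v w : TangentSpace 𝓘(ℝ, E) x), inner ℝ v w =
      r ^ 2 * pb E N (fun y => j (Φ y).1) x v w + r ^ 2 * pb E N (fun y => j (Φ y).2) x v w)
    (h2 : ∀ a b, φ a = φ b ↔ (j (Φ b).1, j (Φ b).2) ∈ O (j (Φ a).1) (j (Φ a).2)) :
    IsoQuot E M H j r O := by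
  have l : IsLocalDiffeomorph (𝓘(ℝ, H).prod 𝓘(ℝ, H)) 𝓘(ℝ, E) ∞ (φ ∘ Φ.symm) := fun p =>
    (Φ.symm.isLocalDiffeomorph p).comp _ _ (hφ.localDiffeo _)
  refine ⟨φ ∘ Φ.symm, hφ.surjective.comp Φ.symm.surjective, l, fun p v w => ?_, fun p q => ?_⟩
  · obtain ⟨x, rfl⟩ := Φ.surjective p
    have d := Φ.mdifferentiable (by simp) x
    obtain ⟨v', rfl⟩ := (Φ.mfderivToContinuousLinearEquiv (by simp) x).surjective v
    obtain ⟨w', rfl⟩ := (Φ.mfderivToContinuousLinearEquiv (by simp) x).surjective w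
    have h := inner_comp (ψ := φ ∘ Φ.symm) (θ := Φ) (φ := φ) (funext fun y => by simp)
      (l.mdifferentiable (by simp) _) d v' w'
    rw [hφ.isometric, h1, pb_fst hj d, pb_snd hj d] at h
    exact h
  · rw [Function.comp_apply, Function.comp_apply, h2, Φ.apply_symm_apply, Φ.apply_symm_apply]

end smooth

theorem md_coe (n : ℕ) : MDifferentiable 𝓘(ℝ, EuclideanSpace ℝ (Fin n))
    𝓘(ℝ, EuclideanSpace ℝ (Fin (n + 1))) (Subtype.val : Sph n → EuclideanSpace ℝ (Fin (n + 1))) := by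
  have : Fact (Module.finrank ℝ (EuclideanSpace ℝ (Fin (n + 1))) = n + 1) :=
    ⟨finrank_euclideanSpace_fin⟩
  exact (contMDiff_coe_sphere (m := ∞)).mdifferentiable (by simp)

variable {E : Type} [NormedAddCommGroup E] [NormedSpace ℝ E] [FiniteDimensional ℝ E]
  {M : Type} [MetricSpace M] [ChartedSpace E M] [IsManifold 𝓘(ℝ, E) ∞ M]
  [RiemannianBundle fun p : M => TangentSpace 𝓘(ℝ, E) p] [IsRiemannianManifold 𝓘(ℝ, E) M]
  {N : Type} [MetricSpace N] [CompactSpace N] [ChartedSpace E N]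
  [IsManifold 𝓘(ℝ, E) ∞ N] [RiemannianBundle fun p : N => TangentSpace 𝓘(ℝ, E) p]
  [IsContMDiffRiemannianBundle 𝓘(ℝ, E) ∞ E fun p : N => TangentSpace 𝓘(ℝ, E) p]
  [IsRiemannianManifold 𝓘(ℝ, E) N]

theorem quot_of [SimplyConnectedSpace N] (hdim : Module.finrank ℝ E = 4) {φ : N → M}
    (hφ : IsRiemannianCovering E φ) {r : ℝ} (hr : 0 < r) (h : IsRoundS2S2 N r) :
    ∃ k, IsoQuot E M (EuclideanSpace ℝ (Fin 2)) (Subtype.val : Sph 2 → EuclideanSpace ℝ (Fin 3)) r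
      (orb refl k) := by
  obtain ⟨A₀, B₀, C₀⟩ := coord_of h
  obtain ⟨k, A, B, C, hk⟩ := quotient_S2S2 (metricCover hφ) hr C₀
  obtain ⟨e, F⟩ := exists_facts E N
  obtain ⟨Φ, h1, h2⟩ := isoS2S2 F hdim hr A B C.a1 C.b1 C.d C.surj
  refine ⟨k, isoQuot_of (md_coe 2) hφ Φ h2 fun a b => ?_⟩
  rw [hk, ← (h1 a).1, ← (h1 a).2, ← (h1 b).1, ← (h1 b).2]

end Vale.Agent.N211

end

section

/-! Lifts to the universal covering. -/

set_option maxSynthPendingDepth 3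
set_option linter.unusedSectionVars false

namespace Vale.Agent.N211

open scoped Manifold ContDiff Topology LinearAlgebra.Projectivization
open Bundle Filter InnerProductGeometry Vale.Agent.P211 Vale.Agent.P211.NN Vale.Agent.P211Z
  Vale.Agent.P211.HK Vale.Agent.P211Y

theorem smooth_lift {E₁ E₂ E₃ H₁ H₂ H₃ X Y Z : Type} [NormedAddCommGroup E₁] [NormedSpace ℝ E₁]
    [NormedAddCommGroup E₂] [NormedSpace ℝ E₂] [NormedAddCommGroup E₃] [NormedSpace ℝ E₃]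
    [TopologicalSpace H₁] [TopologicalSpace H₂] [TopologicalSpace H₃]
    {I : ModelWithCorners ℝ E₁ H₁} {J : ModelWithCorners ℝ E₂ H₂} {K : ModelWithCorners ℝ E₃ H₃}
    [TopologicalSpace X] [ChartedSpace H₁ X] [TopologicalSpace Y] [ChartedSpace H₂ Y]
    [TopologicalSpace Z] [ChartedSpace H₃ Z] {f : Y → Z} {g : X → Y}
    (hf : IsLocalDiffeomorph J K ∞ f) (hg : Continuous g) (h : ContMDiff I K ∞ (f ∘ g)) :
    ContMDiff I J ∞ g := by
  intro x
  refine (ContMDiffAt.comp x (hf (g x)).localInverse_contMDiffAt (h x)).congr_of_eventuallyEq ?_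
  filter_upwards [hg.continuousAt.eventually (hf (g x)).localInverse_eventuallyEq_left] with u hu
  exact hu.symm

variable {E : Type} [NormedAddCommGroup E] [NormedSpace ℝ E] [FiniteDimensional ℝ E]
  {M : Type} [MetricSpace M] [ChartedSpace E M] [IsManifold 𝓘(ℝ, E) ∞ M]
  [RiemannianBundle fun p : M => TangentSpace 𝓘(ℝ, E) p]
  [IsContMDiffRiemannianBundle 𝓘(ℝ, E) ∞ E fun p : M => TangentSpace 𝓘(ℝ, E) p]
  {N : Type} [MetricSpace N] [ChartedSpace E N] [IsManifold 𝓘(ℝ, E) ∞ N]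
  [RiemannianBundle fun p : N => TangentSpace 𝓘(ℝ, E) p]
  [IsContMDiffRiemannianBundle 𝓘(ℝ, E) ∞ E fun p : N => TangentSpace 𝓘(ℝ, E) p]
  {φ : N → M} (hφ : IsRiemannianCovering E φ)
  {cov : CovariantDerivative 𝓘(ℝ, E) E (TangentSpace 𝓘(ℝ, E) : M → Type)}

/-- the pull back of a smooth field -/
noncomputable def pl (X : SmoothField E M) : SmoothField E N :=
  ⟨pull φ X, fun y => Sm.pull (hφ.localDiffeo y) (X.contMDiff _)⟩

theorem push_Rm (hs : cov.ContMDiffCovariantDerivative ∞) (X Y Z W : SmoothField E M) (y : N) :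
    Rm cov X Y Z W (φ y) =
      Rm (pcov hφ.localDiffeo cov) (pl hφ X) (pl hφ Y) (pl hφ Z) (pl hφ W) y :=
  (Rm_pcov hφ.localDiffeo cov hs hφ.isometric (Eventually.of_forall fun _ => rfl)
    (Eventually.of_forall fun _ => rfl) (Eventually.of_forall fun _ => rfl)
    (Eventually.of_forall fun _ => rfl)).symm

theorem push_inner (X Y : SmoothField E M) (y : N) :
    inner ℝ (X (φ y)) (Y (φ y)) = inner ℝ (pl hφ X y) (pl hφ Y y) :=
  (inner_rel hφ.localDiffeo hφ.isometric rfl rfl).symm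

theorem push (hs : cov.ContMDiffCovariantDerivative ∞) {lam : ℝ}
    (h : RicciEq (pcov hφ.localDiffeo cov) (fun _ => lam) ∧ SecNonneg (pcov hφ.localDiffeo cov)) :
    RicciEq cov (fun _ => lam) ∧ SecNonneg cov := by
  refine ⟨fun p F hF Y Z => ?_, fun p X Y => ?_⟩ <;> obtain ⟨y, rfl⟩ := hφ.surjective p
  · simp only [push_Rm hφ hs, push_inner hφ]
    refine h.1 y (fun i => pl hφ (F i)) ?_ _ _
    unfold OrthonormalAt at hF ⊢
    rw [orthonormal_iff_ite] at hF ⊢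
    exact fun i j => (push_inner hφ _ _ y).symm.trans (hF i j)
  · rw [push_Rm hφ hs]
    exact h.2 y _ _

theorem lc_pcov (hc : IsLeviCivita cov) : IsLC (pcov hφ.localDiffeo cov) :=
  isLC_of (H555.levi (pcov_smooth hφ.localDiffeo cov hc.smooth)
    (pcov_torsion hφ.localDiffeo cov hc.torsion)
    (pcov_metric hφ.localDiffeo cov hφ.isometric hc.metric))

theorem smo_coe {n : ℕ} {f : N → Sph n}
    (h : ContMDiff 𝓘(ℝ, E) 𝓘(ℝ, EuclideanSpace ℝ (Fin n)) ∞ f) :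
    Smo E fun y => (f y : EuclideanSpace ℝ (Fin (n + 1))) := by
  have : Fact (Module.finrank ℝ (EuclideanSpace ℝ (Fin (n + 1))) = n + 1) :=
    ⟨finrank_euclideanSpace_fin⟩
  exact (contMDiff_coe_sphere (m := ∞)).comp h

include hφ in
theorem exists_lift [SimplyConnectedSpace N] {r : ℝ} {O : R3 → R3 → Set (R3 × R3)}
    (h : IsoQuot E M (EuclideanSpace ℝ (Fin 2)) (Subtype.val : Sph 2 → R3) r O) :
    ∃ (θ : N → Sph 2 × Sph 2) (ψ : Sph 2 × Sph 2 → M),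
      ContMDiff 𝓘(ℝ, E) ((𝓡 2).prod (𝓡 2)) ∞ θ ∧ IsLocalHomeomorph θ ∧
      ContMDiff ((𝓡 2).prod (𝓡 2)) 𝓘(ℝ, E) ∞ ψ ∧ ψ ∘ θ = φ ∧
      (∀ (x : N) (v w : TangentSpace 𝓘(ℝ, E) x), inner ℝ v w =
        r ^ 2 * pb E N (fun y => ((θ y).1 : R3)) x v w +
          r ^ 2 * pb E N (fun y => ((θ y).2 : R3)) x v w) ∧
      ∀ a b, φ a = φ b ↔ (((θ b).1 : R3), ((θ b).2 : R3)) ∈ O (θ a).1 (θ a).2 := by
  obtain ⟨ψ, h1, h2, h3, h4⟩ := h
  have : LocallyPathConnectedSpace N := ChartedSpace.locallyPathConnectedSpace E N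
  have c : IsCoveringMap ψ := isLocalHomeomorph_iff_isCoveringMap.1 h2.isLocalHomeomorph
  obtain ⟨a⟩ : Nonempty N := inferInstance
  obtain ⟨e, he⟩ := h1 (φ a)
  obtain ⟨θ, ⟨-, hθ⟩, -⟩ := c.existsUnique_continuousMap_lifts ⟨φ, hφ.covering.continuous⟩ a e he
  have hθ' : ψ ∘ θ = φ := hθ
  have s := smooth_lift h2 θ.continuous (hθ' ▸ hφ.localDiffeo.contMDiff)
  refine ⟨θ, ψ, s, IsLocalHomeomorph.of_comp (hθ' ▸ hφ.covering.isLocalHomeomorph)
    h2.isLocalHomeomorph θ.continuous, h2.contMDiff, hθ', fun x v w => ?_, fun a b => ?_⟩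
  · have d := (s x).mdifferentiableAt (by simp)
    rw [← hφ.isometric, ← inner_comp hθ' (h2.mdifferentiable (by simp) _) d,
      pb_fst (md_coe 2) d, pb_snd (md_coe 2) d]
    exact h3 _ _ _
  · rw [← h4, ← hθ']
    rfl

include hφ in
theorem quot_curv [SimplyConnectedSpace N] (hdim : Module.finrank ℝ E = 4) (hc : IsLeviCivita cov)
    {r : ℝ} (hr : 0 < r) {O : R3 → R3 → Set (R3 × R3)}
    (h : IsoQuot E M (EuclideanSpace ℝ (Fin 2)) (Subtype.val : Sph 2 → R3) r O) :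
    (RicciEq (pcov hφ.localDiffeo cov) (fun _ => (r ^ 2)⁻¹) ∧
      SecNonneg (pcov hφ.localDiffeo cov)) ∧ ∀ y, ¬Pos (pcov hφ.localDiffeo cov) y := by
  obtain ⟨θ, ψ, s, -, -, -, g, -⟩ := exists_lift hφ h
  have a := smo_coe (contMDiff_fst.comp s)
  have b := smo_coe (contMDiff_snd.comp s)
  have a1 : ∀ y, ‖((θ y).1 : R3)‖ = 1 := fun y => norm_eq_of_mem_sphere _
  have b1 : ∀ y, ‖((θ y).2 : R3)‖ = 1 := fun y => norm_eq_of_mem_sphere _
  exact ⟨⟨prod_ricci hdim (lc_pcov hφ hc) hr a b a1 b1 g,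
    prod_sec hdim (lc_pcov hφ hc) hr a b a1 b1 g⟩,
    prod_not_pos hdim (lc_pcov hφ hc) hr a b a1 b1 g⟩

include hφ in
theorem lift_coord [SimplyConnectedSpace N] [CompactSpace N] [IsRiemannianManifold 𝓘(ℝ, E) N]
    (hdim : Module.finrank ℝ E = 4) {r : ℝ} (hr : 0 < r) (h₀ : IsRoundS2S2 N r)
    {O : R3 → R3 → Set (R3 × R3)}
    (h : IsoQuot E M (EuclideanSpace ℝ (Fin 2)) (Subtype.val : Sph 2 → R3) r O) :
    ∃ A B : N → R3, Coord r A B ∧ ∀ a b, φ a = φ b ↔ (A b, B b) ∈ O (A a) (B a) := by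
  obtain ⟨θ, ψ, s, l, sψ, e, g, f⟩ := exists_lift hφ h
  obtain ⟨A, B, C⟩ := coord_of h₀
  obtain ⟨_, F⟩ := exists_facts E N
  obtain ⟨Φ, h1, h2⟩ := isoS2S2 F hdim hr A B C.a1 C.b1 C.d C.surj
  have : LocallyPathConnectedSpace N := ChartedSpace.locallyPathConnectedSpace E N
  let κ : N → N := Φ.symm ∘ θ
  have e1 : Φ ∘ κ = θ := funext fun y => Φ.apply_symm_apply _
  have sκ : ContMDiff 𝓘(ℝ, E) 𝓘(ℝ, E) ∞ κ := Φ.symm.contMDiff.comp s
  have c : IsCoveringMap κ := isLocalHomeomorph_iff_isCoveringMap.1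
    (Φ.symm.toHomeomorph.isLocalHomeomorph.comp l)
  obtain ⟨a⟩ : Nonempty N := inferInstance
  obtain ⟨τ, ⟨t1, t2⟩, -⟩ := c.existsUnique_continuousMap_lifts (ContinuousMap.id N) (κ a) a rfl
  have t2' : κ ∘ τ = id := t2
  have t3 : τ ∘ κ = id := c.eq_of_comp_eq (τ.continuous.comp sκ.continuous) continuous_id
    (by rw [← Function.comp_assoc, t2']; rfl) a t1
  have sτ : ContMDiff 𝓘(ℝ, E) 𝓘(ℝ, E) ∞ τ := by
    refine smooth_lift hφ.localDiffeo τ.continuous ?_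
    rw [← e, ← e1, Function.comp_assoc, Function.comp_assoc, t2']
    exact sψ.comp Φ.contMDiff
  have iκ : ∀ (x : N) (v w : TangentSpace 𝓘(ℝ, E) x),
      inner ℝ (dm E κ x v) (dm E κ x w) = inner ℝ v w := by
    intro x v w
    have d := (sκ x).mdifferentiableAt (by simp)
    have d' := Φ.mdifferentiable (by simp) (κ x)
    have d'' := d'.comp x d
    have h3 := h2 (κ x) (dm E κ x v) (dm E κ x w)
    rw [g x v w, ← e1, pb_fst (md_coe 2) d'', pb_snd (md_coe 2) d'', mfderiv_comp_apply x d' d,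
      mfderiv_comp_apply x d' d]
    exact h3.trans (congrArg₂ (fun s t => r ^ 2 * s + r ^ 2 * t) (pb_fst (md_coe 2) d' _ _)
      (pb_snd (md_coe 2) d' _ _))
  have iτ : ∀ (x : N) (v w : TangentSpace 𝓘(ℝ, E) x),
      inner ℝ (dm E τ x v) (dm E τ x w) = inner ℝ v w := by
    intro x v w
    rw [← iκ, inner_comp t2' ((sκ _).mdifferentiableAt (by simp))
      ((sτ x).mdifferentiableAt (by simp)), mfderiv_id]
    rfl
  have iso : Isometry κ := Isometry.of_dist_eq fun x y => by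
    refine le_antisymm (dist_map_le sκ iκ x y) ?_
    have h3 := dist_map_le sτ iτ (κ x) (κ y)
    rwa [show τ (κ x) = x from congrFun t3 x, show τ (κ y) = y from congrFun t3 y] at h3
  refine ⟨fun y => A (κ y), fun y => B (κ y), ⟨fun y => C.a1 _, fun y => C.b1 _, C.comp iso,
    fun a b ha hb => ?_⟩, fun a b => ?_⟩
  · obtain ⟨x, hx⟩ := C.surj a b ha hb
    exact ⟨τ x, by rwa [show κ (τ x) = x from congrFun t2' x]⟩
  · beta_reduce
    rw [f, ← e1, ← (h1 _).1, ← (h1 _).2, ← (h1 _).1, ← (h1 _).2]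
    rfl

theorem eqv_of {N M : Type} [MetricSpace N] {φ : N → M} {r : ℝ} (hr : 0 < r) {A B A' B' : N → R3}
    (C : Coord r A B) (C' : Coord r A' B') {k l : Fin 8}
    (h : ∀ a b, φ a = φ b ↔ (A b, B b) ∈ orb refl k (A a) (B a))
    (h' : ∀ a b, φ a = φ b ↔ (A' b, B' b) ∈ orb refl l (A' a) (B' a)) : Eqv (rl k) (rl l) := by
  rcases C.compare hr C'.a1 C'.b1 C'.d with ⟨U, W, e⟩ | ⟨U, W, e⟩
  · refine ⟨U, W, Or.inl fun x y x' y' hx hy hx' hy' => ?_⟩
    obtain ⟨a, rfl, rfl⟩ := C.surj x y hx hy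
    obtain ⟨b, rfl, rfl⟩ := C.surj x' y' hx' hy'
    rw [rl, rl, ← h, h', (e a).1, (e a).2, (e b).1, (e b).2]
  · refine ⟨U, W, Or.inr fun x y x' y' hx hy hx' hy' => ?_⟩
    obtain ⟨a, rfl, rfl⟩ := C.surj x y hx hy
    obtain ⟨b, rfl, rfl⟩ := C.surj x' y' hx' hy'
    rw [rl, rl, ← h, h', (e a).1, (e a).2, (e b).1, (e b).2]

/-- the sphere is not the projective space -/
theorem s4_not_rp4 {r c : ℝ} (h : IsoS4 E M r) (h' : IsoProj E M ℝ 4 c) : False := by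
  obtain ⟨Ψ, -⟩ := h
  obtain ⟨Φ, P, h1, -⟩ := h'
  have := P216.SCS.simplyConnected_sphere 4 (by norm_num)
  have : SimplyConnectedSpace M := P216.SCS.simplyConnected_of_homeo Ψ.toHomeomorph
  have : LocallyPathConnectedSpace M := ChartedSpace.locallyPathConnectedSpace E M
  let p : Sph 4 → M := fun u => P u
  have u0 : ∀ u : Sph 4, (u : EuclideanSpace ℝ (Fin (4 + 1))) ≠ 0 := ne_zero_of_mem_unit_sphere
  have c : Continuous p := continuous_iff_continuousAt.2 fun u =>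
    (h1 u (u0 u)).2.1.continuousAt.comp continuous_subtype_val.continuousAt
  have f : ∀ u v, p u = p v ↔ u = v ∨ u = -v := by
    intro u v
    change P u = P v ↔ _
    rw [(h1 u (u0 u)).1, (h1 v (u0 v)).1, Φ.injective.eq_iff, Projectivization.mk_eq_mk_iff']
    constructor
    · rintro ⟨a, ha⟩
      have h2 := congrArg norm ha
      rw [norm_smul, norm_eq_of_mem_sphere, norm_eq_of_mem_sphere, mul_one, Real.norm_eq_abs] at h2
      rcases (abs_eq zero_le_one).1 h2 with rfl | rfl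
      · exact Or.inl (Subtype.ext (by simpa using ha.symm))
      · exact Or.inr (Subtype.ext (by simpa using ha.symm))
    · rintro (rfl | rfl)
      · exact ⟨1, one_smul _ _⟩
      · exact ⟨-1, by simp⟩
  have sj : Function.Surjective p := by
    intro x
    obtain ⟨l, rfl⟩ := Φ.surjective x
    have l0 := l.rep_nonzero
    refine ⟨⟨‖l.rep‖⁻¹ • l.rep, mem_sphere_zero_iff_norm.2 (P211W.norm_nrm l0)⟩, ?_⟩
    refine ((h1 _ (u0 _)).1).trans (congrArg Φ ?_)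
    exact ((Projectivization.mk_eq_mk_iff' ℝ _ _ _ l0).2 ⟨_, rfl⟩).trans l.mk_rep
  have o : IsOpenMap p := by
    intro U hU
    rw [← (c.isClosedMap.isQuotientMap c sj).isOpen_preimage]
    have e : p ⁻¹' (p '' U) = U ∪ Neg.neg ⁻¹' U := by
      ext u
      simp only [Set.mem_preimage, Set.mem_image, Set.mem_union, f]
      constructor
      · rintro ⟨v, hv, rfl | rfl⟩
        exacts [Or.inl hv, Or.inr hv]
      · rintro (h | h)
        exacts [⟨u, h, Or.inl rfl⟩, ⟨-u, h, Or.inr rfl⟩]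
    rw [e]
    exact hU.union (hU.preimage continuous_neg)
  have l : IsLocalHomeomorph p := by
    refine isLocalHomeomorph_iff_isOpenEmbedding_restrict.2 fun u => ?_
    let U : Set (Sph 4) := {v | 0 < inner ℝ (u : EuclideanSpace ℝ (Fin (4 + 1))) v}
    have hU : IsOpen U := isOpen_lt continuous_const (by fun_prop)
    refine ⟨U, hU.mem_nhds (real_inner_self_pos.2 (u0 u)), ?_⟩
    refine .of_continuous_injective_isOpenMap (c.comp continuous_subtype_val) ?_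
      (o.comp hU.isOpenMap_subtype_val)
    rintro ⟨v, hv⟩ ⟨w, hw⟩ h
    rcases (f v w).1 h with rfl | rfl
    · rfl
    · have h2 : 0 < inner ℝ (u : EuclideanSpace ℝ (Fin (4 + 1))) (-w) := hv
      rw [inner_neg_right] at h2
      exact absurd (neg_pos.1 h2) (not_lt.2 (le_of_lt hw))
  have cv : IsCoveringMap p := isLocalHomeomorph_iff_isCoveringMap.1 l
  obtain ⟨u⟩ : Nonempty (Sph 4) := inferInstance
  obtain ⟨σ, ⟨s1, s2⟩, -⟩ := cv.existsUnique_continuousMap_lifts (ContinuousMap.id M) (p u) u rfl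
  have s2' : p ∘ σ = id := s2
  have s3 : σ ∘ p = id := cv.eq_of_comp_eq (σ.continuous.comp c) continuous_id
    (by rw [← Function.comp_assoc, s2']; rfl) u s1
  have s4 : -u = u :=
    Function.LeftInverse.injective (g := σ) (f := p) (congrFun s3) ((f _ _).2 (Or.inr rfl))
  exact neg_ne_unit (norm_eq_of_mem_sphere u) (congrArg Subtype.val s4)

end Vale.Agent.N211

end

section

/-! The classification of the closed manifolds. -/

set_option maxSynthPendingDepth 3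
set_option linter.unusedSectionVars false

namespace Vale.Agent.N211

open scoped Manifold ContDiff Topology
open Bundle Filter Vale.Agent.P211 Vale.Agent.P211.NN Vale.Agent.P211Z Vale.Agent.P211.HK
  Vale.Agent.P211Y

variable {E : Type} [NormedAddCommGroup E] [NormedSpace ℝ E] [FiniteDimensional ℝ E]
  (hdim : Module.finrank ℝ E = 4) {lam : ℝ} (hlam : 0 < lam)

section one

variable {N : Type} [MetricSpace N] [PreconnectedSpace N] [ChartedSpace E N]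
  [IsManifold 𝓘(ℝ, E) ∞ N] [RiemannianBundle fun p : N => TangentSpace 𝓘(ℝ, E) p]
  [IsContMDiffRiemannianBundle 𝓘(ℝ, E) ∞ E fun p : N => TangentSpace 𝓘(ℝ, E) p]
  {cov : CovariantDerivative 𝓘(ℝ, E) E (TangentSpace 𝓘(ℝ, E) : N → Type)} (hc : IsLC cov)

include hlam in
theorem sq_inv {a : ℝ} (ha : 0 < a) : (√(a / lam) ^ 2)⁻¹ = lam / a := by
  rw [Real.sq_sqrt (by positivity), inv_div]

include hdim hlam hc

theorem kp_S4 (h : IsoS4 E N √(3 / lam)) : KP cov (lam / 3) 0 := by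
  obtain ⟨Φ, hΦ⟩ := h
  rw [← sq_inv hlam three_pos]
  exact kp_sphere hdim hc (by positivity) finrank_euclideanSpace_fin (smo_coe Φ.contMDiff)
    (fun y => norm_eq_of_mem_sphere _) hΦ

theorem kp_RP4 (h : IsoProj E N ℝ 4 √(3 / lam)) : KP cov (lam / 3) 0 := by
  have h1 := kp_lines ℝ hc (by positivity) h
  rw [sq_inv hlam three_pos] at h1
  simpa using h1

theorem kp_CP2 (h : IsoProj E N ℂ 2 √(6 / lam)) : KP cov (lam / 6) 1 := by
  have h1 := kp_lines ℂ hc (by positivity) h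
  rw [sq_inv hlam (by norm_num)] at h1
  simpa using h1

theorem ein0 (h : KP cov (lam / 3) 0) : RicciEq cov (fun _ => lam) ∧ SecNonneg cov :=
  ⟨by simpa using h.ricci hdim, h.sec (by positivity)⟩

theorem ein1 (h : KP cov (lam / 6) 1) : RicciEq cov (fun _ => lam) ∧ SecNonneg cov := by
  refine ⟨?_, h.sec (by positivity)⟩
  have e : lam / 6 * (3 + 3 * 1) = lam := by ring
  simpa only [e] using h.ricci hdim

theorem ein_S2S2 (h : IsoS2S2 E N √(1 / lam)) : RicciEq cov (fun _ => lam) ∧ SecNonneg cov := by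
  obtain ⟨Φ, g⟩ := h
  have a := smo_coe (contMDiff_fst.comp Φ.contMDiff)
  have b := smo_coe (contMDiff_snd.comp Φ.contMDiff)
  have a1 : ∀ y, ‖((Φ y).1 : R3)‖ = 1 := fun y => norm_eq_of_mem_sphere _
  have b1 : ∀ y, ‖((Φ y).2 : R3)‖ = 1 := fun y => norm_eq_of_mem_sphere _
  have hr : 0 < √(1 / lam) := by positivity
  refine ⟨?_, prod_sec hdim hc hr a b a1 b1 g⟩
  simpa only [sq_inv hlam one_pos, div_one] using prod_ricci hdim hc hr a b a1 b1 g

end one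

variable {M : Type} [MetricSpace M] [CompactSpace M] [ConnectedSpace M] [ChartedSpace E M]
  [IsManifold 𝓘(ℝ, E) ∞ M] [RiemannianBundle fun p : M => TangentSpace 𝓘(ℝ, E) p]
  [IsContMDiffRiemannianBundle 𝓘(ℝ, E) ∞ E fun p : M => TangentSpace 𝓘(ℝ, E) p]
  [IsRiemannianManifold 𝓘(ℝ, E) M]
  {cov : CovariantDerivative 𝓘(ℝ, E) E (TangentSpace 𝓘(ℝ, E) : M → Type)} (hc : IsLeviCivita cov)

include hc in
theorem lc_of : IsLC cov := isLC_of (H555.levi hc.smooth hc.torsion hc.metric)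

include hdim hlam hc

theorem left_kp {i : Fin 3} (h : IsoModel E M lam (Sum.inl i)) :
    (i ≠ 2 ∧ KP cov (lam / 3) 0) ∨ (i = 2 ∧ KP cov (lam / 6) 1) := by
  fin_cases i
  · exact Or.inl ⟨by decide, kp_S4 hdim hlam (lc_of hc) h⟩
  · exact Or.inl ⟨by decide, kp_RP4 hdim hlam (lc_of hc) h⟩
  · exact Or.inr ⟨rfl, kp_CP2 hdim hlam (lc_of hc) h⟩

theorem model_curv {i : Fin 3 ⊕ Fin 8} (h : IsoModel E M lam i) :
    (RicciEq cov (fun _ => lam) ∧ SecNonneg cov) ∧ ∀ p, (Pos cov p ↔ i.isLeft) := by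
  rcases i with i | k
  · rcases left_kp hdim hlam hc h with ⟨-, h⟩ | ⟨-, h⟩
    · exact ⟨ein0 hdim hlam (lc_of hc) h, fun p => by simpa using h.pos (by positivity) p⟩
    · exact ⟨ein1 hdim hlam (lc_of hc) h, fun p => by simpa using h.pos (by positivity) p⟩
  · obtain ⟨N, _, _, _, _, _, _, φ, hN, hφ⟩ := exists_universal (E := E) (M := M)
    obtain ⟨h1, h2⟩ := quot_curv hφ hdim hc (by positivity) h
    rw [sq_inv hlam one_pos, div_one] at h1
    refine ⟨push hφ hc.smooth h1, fun p => ?_⟩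
    obtain ⟨y, rfl⟩ := hφ.surjective p
    exact iff_of_false
      (fun hp => h2 y (pcov_secPos hφ.localDiffeo cov hc.smooth hφ.isometric hp)) (by simp)

theorem model_unique {i j : Fin 3 ⊕ Fin 8} (h : IsoModel E M lam i) (h' : IsoModel E M lam j) :
    i = j := by
  obtain ⟨p⟩ : Nonempty M := inferInstance
  have e := ((model_curv hdim hlam hc h).2 p).symm.trans ((model_curv hdim hlam hc h').2 p)
  rcases i with i | k <;> rcases j with j | l
  · congr 1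
    rcases left_kp hdim hlam hc h with ⟨a, a'⟩ | ⟨a, a'⟩ <;>
      rcases left_kp hdim hlam hc h' with ⟨b, b'⟩ | ⟨b, b'⟩
    · fin_cases i <;> fin_cases j <;> first
        | rfl | exact absurd rfl a | exact absurd rfl b | exact (s4_not_rp4 h h').elim
        | exact (s4_not_rp4 h' h).elim
    · linarith [a'.ne hdim b']
    · linarith [b'.ne hdim a']
    · rw [a, b]
  · simp at e
  · simp at e
  · obtain ⟨N, _, _, _, _, _, _, φ, hN, hφ⟩ := exists_universal (E := E) (M := M)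
    obtain ⟨h1, h2⟩ := (model_curv hdim hlam hc h).1
    obtain ⟨c, h3, -⟩ := classify hdim cov hc.smooth hc.torsion hc.metric h2 hlam h1 N φ hN hφ
    have hr : 0 < √(1 / lam) := by positivity
    obtain ⟨y⟩ : Nonempty N := inferInstance
    have np := (quot_curv hφ hdim hc hr h).2 y
    rcases h3 with h3 | h3 | h3
    · exact (np ((kp_S4 hdim hlam (lc_pcov hφ hc) (P211W.of_S4 hdim (by positivity) h3)).pos
        (by positivity) y)).elim
    · exact (np ((kp_CP2 hdim hlam (lc_pcov hφ hc) (P211W.of_CP2 hdim (by positivity) h3)).pos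
        (by positivity) y)).elim
    · obtain ⟨A, B, C, f⟩ := lift_coord hφ hdim hr h3 h
      obtain ⟨A', B', C', f'⟩ := lift_coord hφ hdim hr h3 h'
      exact congrArg _ (rl_unique (eqv_of hr C C' f f') (eqv_of hr C' C f' f))

theorem model_exists (h1 : RicciEq cov fun _ => lam) (h2 : SecNonneg cov) :
    ∃ i, IsoModel E M lam i := by
  obtain ⟨N, _, _, _, _, _, _, φ, hN, hφ⟩ := exists_universal (E := E) (M := M)
  obtain ⟨c, h3, -⟩ := classify hdim cov hc.smooth hc.torsion hc.metric h2 hlam h1 N φ hN hφ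
  rcases h3 with h | h | h
  · rcases quotient_S4 (metricCover hφ) (by positivity) h with h | h
    · exact ⟨Sum.inl 0, P211W.of_S4 hdim (by positivity) h⟩
    · exact ⟨Sum.inl 1, P211W.of_RP4 hdim (by positivity) h⟩
  · exact ⟨Sum.inl 2, P211W.of_CP2 hdim (by positivity)
      (quotient_CP2 (metricCover hφ) (by positivity) h)⟩
  · obtain ⟨k, hk⟩ := quot_of hdim hφ (by positivity) h
    exact ⟨Sum.inr k, hk⟩

theorem cover_iff {N : Type} [MetricSpace N] [ChartedSpace E N] [IsManifold 𝓘(ℝ, E) ∞ N]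
    [RiemannianBundle fun p : N => TangentSpace 𝓘(ℝ, E) p]
    [IsContMDiffRiemannianBundle 𝓘(ℝ, E) ∞ E fun p : N => TangentSpace 𝓘(ℝ, E) p]
    [IsRiemannianManifold 𝓘(ℝ, E) N] {φ : N → M} (hN : SimplyConnectedSpace N)
    (hφ : IsRiemannianCovering E φ) : RicciEq cov (fun _ => lam) ∧ SecNonneg cov ↔
      IsoS4 E N √(3 / lam) ∨ IsoProj E N ℂ 2 √(6 / lam) ∨ IsoS2S2 E N √(1 / lam) := by
  constructor
  · rintro ⟨h1, h2⟩
    obtain ⟨c, h3, -⟩ := classify hdim cov hc.smooth hc.torsion hc.metric h2 hlam h1 N φ hN hφ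
    exact h3.imp (P211W.of_S4 hdim (by positivity))
      (Or.imp (P211W.of_CP2 hdim (by positivity)) (P211W.of_S2S2 hdim (by positivity)))
  · have l := lc_pcov hφ hc
    rintro (h | h | h) <;> refine push hφ hc.smooth ?_
    · exact ein0 hdim hlam l (kp_S4 hdim hlam l h)
    · exact ein1 hdim hlam l (kp_CP2 hdim hlam l h)
    · exact ein_S2S2 hdim hlam l h

end Vale.Agent.N211

end
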