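import Vale.Agent.P211Z.Pull1
import Vale.Agent.P211W98.Sph
import Vale.Agent.N211.Quot
import Vale.Agent.P211W98.Main2

section

/-! Construction of Riemannian manifolds: metrics from local immersions, atlases, quotients. -/

set_option maxSynthPendingDepth 3
set_option linter.unusedSectionVars false

namespace Vale.Agent.N211

open scoped Manifold ContDiff Topology
open Bundle Filter Set Vale.Agent.P211Z

noncomputable section

variable {E : Type} [NormedAddCommGroup E] [NormedSpace ℝ E] [FiniteDimensional ℝ E]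
  {V : Type} [NormedAddCommGroup V] [NormedSpace ℝ V]

theorem bdd_of_pos (B : E →L[ℝ] E →L[ℝ] ℝ) (h : ∀ v, v ≠ 0 → 0 < B v v) :
    Bornology.IsVonNBounded ℝ {v : E | B v v < 1} := by
  have : ProperSpace E := FiniteDimensional.proper_real E
  obtain ⟨c, c0, hc⟩ := (isCompact_sphere (0 : E) 1).exists_forall_le'
    (f := fun v => B v v) (by fun_prop) (a := 0)
    (fun v hv => h v (by rintro rfl; simp at hv))
  refine (NormedSpace.isVonNBounded_ball ℝ E (1 / c + 1)).subset fun v hv => ?_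
  rw [mem_ball_zero_iff]
  by_cases v0 : v = 0
  · rw [v0, norm_zero]; positivity
  have n0 : 0 < ‖v‖ := norm_pos_iff.2 v0
  have h1 := hc (‖v‖⁻¹ • v) (by simp [norm_smul, n0.ne'])
  simp only [map_smul, _root_.smul_apply, smul_eq_mul] at h1
  have h2 : c * ‖v‖ ^ 2 ≤ B v v := by
    have h3 := mul_le_mul_of_nonneg_right h1 (sq_nonneg ‖v‖)
    field_simp at h3
    exact h3
  have h4 : B v v < 1 := hv
  have h5 : ‖v‖ ^ 2 < 1 / c := by rw [lt_div_iff₀ c0]; linarith
  nlinarith [sq_nonneg (‖v‖ - 1), one_div_pos.2 c0]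

section

variable {M : Type} [TopologicalSpace M] [ChartedSpace E M] [IsManifold 𝓘(ℝ, E) ∞ M]

/-- a metric given by local immersions -/
theorem exists_metric (q : V →L[ℝ] V →L[ℝ] ℝ) (hs : ∀ a b, q a b = q b a) (f : M → M → V)
    (h1 : ∀ m, ContMDiffAt 𝓘(ℝ, E) 𝓘(ℝ, V) ∞ (f m) m)
    (h2 : ∀ m (v : TangentSpace 𝓘(ℝ, E) m), v ≠ 0 →
      0 < q (mvfderiv 𝓘(ℝ, E) (f m) m v) (mvfderiv 𝓘(ℝ, E) (f m) m v))
    (h3 : ∀ m, ∀ᶠ y in 𝓝 m, ∀ v w : TangentSpace 𝓘(ℝ, E) y,
      q (mvfderiv 𝓘(ℝ, E) (f y) y v) (mvfderiv 𝓘(ℝ, E) (f y) y w) =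
        q (mvfderiv 𝓘(ℝ, E) (f m) y v) (mvfderiv 𝓘(ℝ, E) (f m) y w)) :
    ∃ (_ : RiemannianBundle fun p : M => TangentSpace 𝓘(ℝ, E) p)
      (_ : IsContMDiffRiemannianBundle 𝓘(ℝ, E) ∞ E fun p : M => TangentSpace 𝓘(ℝ, E) p),
      ∀ m (v w : TangentSpace 𝓘(ℝ, E) m),
        inner ℝ v w = q (mvfderiv 𝓘(ℝ, E) (f m) m v) (mvfderiv 𝓘(ℝ, E) (f m) m w) := by
  let g : ContMDiffRiemannianMetric 𝓘(ℝ, E) ∞ E (fun y : M => TangentSpace 𝓘(ℝ, E) y) :=
    { inner := fun y => ((mvfderiv 𝓘(ℝ, E) (f y) y).precomp ℝ).comp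
        (q.comp (mvfderiv 𝓘(ℝ, E) (f y) y))
      symm := fun y v w => hs _ _
      pos := h2
      isVonNBounded := fun y => bdd_of_pos (E := E) _ (h2 y)
      contMDiff := fun y => by
        rw [contMDiffAt_hom_bundle]
        refine ⟨contMDiffAt_id,
          contMDiffAt_clm_of_apply fun v => contMDiffAt_clm_of_apply fun w => ?_⟩
        have a := (h1 y).mfderiv_const (m := ∞) (by simp)
        have b := ((q.contDiff.contMDiff.contMDiffAt.comp y
          (a.clm_apply (contMDiffAt_const (c := v)))).clm_apply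
          (a.clm_apply (contMDiffAt_const (c := w))))
        refine b.congr_of_eventuallyEq ?_
        let e := trivializationAt E (TangentSpace 𝓘(ℝ, E) : M → Type) y
        filter_upwards [h3 y,
          e.open_baseSet.mem_nhds (FiberBundle.mem_baseSet_trivializationAt' y)] with z h4 h5
        refine (inCoordinates_apply_eq₂ (E₃ := Bundle.Trivial M ℝ) h5 h5 (mem_univ _)).trans ?_
        have k : ∀ u : E, inTangentCoordinates 𝓘(ℝ, E) 𝓘(ℝ, V) id (f y)
            (mfderiv 𝓘(ℝ, E) 𝓘(ℝ, V) (f y)) y z u = mvfderiv 𝓘(ℝ, E) (f y) z (e.symm z u) := by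
          intro u
          unfold inTangentCoordinates ContinuousLinearMap.inCoordinates
          rw [TangentBundle.continuousLinearMapAt_model_space,
            ← Trivialization.symmL_apply (R := ℝ) e h5]
          rfl
        rw [Function.comp_apply, k, k, ← h4]
        simp
        rfl }
  let r : RiemannianBundle fun p : M => TangentSpace 𝓘(ℝ, E) p := ⟨g.toRiemannianMetric⟩
  exact ⟨r, ⟨g.inner, g.contMDiff, fun _ _ _ => rfl⟩, fun _ _ _ => rfl⟩

end

/-- a manifold given by an atlas -/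
theorem exists_atlas {M ι : Type} [TopologicalSpace M] (c : ι → OpenPartialHomeomorph M E)
    (h1 : ∀ m, ∃ i, m ∈ (c i).source)
    (h2 : ∀ i j, ∀ x ∈ ((c i).symm ≫ₕ c j).source, ContDiffAt ℝ ∞ (c j ∘ (c i).symm) x) :
    ∃ (_ : ChartedSpace E M) (_ : IsManifold 𝓘(ℝ, E) ∞ M), ∀ i,
      ContMDiffOn 𝓘(ℝ, E) 𝓘(ℝ, E) ∞ (c i) (c i).source ∧
      ContMDiffOn 𝓘(ℝ, E) 𝓘(ℝ, E) ∞ (c i).symm (c i).target := by
  choose g hg using h1
  let cM : ChartedSpace E M := ⟨range c, fun m => c (g m), hg, fun m => ⟨_, rfl⟩⟩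
  have mM : IsManifold 𝓘(ℝ, E) ∞ M := by
    refine isManifold_of_contDiffOn _ _ _ ?_
    rintro _ _ ⟨i, rfl⟩ ⟨j, rfl⟩ x hx
    exact (h2 i j x hx.1).contDiffWithinAt
  refine ⟨cM, mM, fun i => ?_⟩
  have hi : c i ∈ IsManifold.maximalAtlas 𝓘(ℝ, E) ∞ M := IsManifold.subset_maximalAtlas ⟨i, rfl⟩
  exact ⟨contMDiffOn_of_mem_maximalAtlas hi, contMDiffOn_symm_of_mem_maximalAtlas hi⟩

variable {G K : Type} [NormedAddCommGroup G] [NormedSpace ℝ G] [TopologicalSpace K]
  {I : ModelWithCorners ℝ G K} [I.Boundaryless] {S : Type} [TopologicalSpace S] [ChartedSpace K S]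
  [IsManifold I ∞ S] {M : Type} [TopologicalSpace M] {ψ : S → M}

theorem exists_push (e : G ≃L[ℝ] E) (hψ : IsLocalHomeomorph ψ) (sj : Function.Surjective ψ)
    (deck : ∀ p p', ψ p = ψ p' → ∃ γ : S → S, ContMDiff I I ∞ γ ∧ γ p = p' ∧ ψ ∘ γ = ψ) :
    ∃ (_ : ChartedSpace E M) (_ : IsManifold 𝓘(ℝ, E) ∞ M), IsLocalDiffeomorph I 𝓘(ℝ, E) ∞ ψ := by
  let κ : S → OpenPartialHomeomorph S E := fun p =>
    ((chartAt K p).transHomeomorph I.toHomeomorph).transHomeomorph e.toHomeomorph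
  have κ1 : ∀ p, ContMDiffOn I 𝓘(ℝ, E) ∞ (κ p) (κ p).source := fun p =>
    e.contDiff.contMDiff.comp_contMDiffOn (contMDiffOn_extChartAt (I := I) (x := p))
  have κ2 : ∀ p, ContMDiffOn 𝓘(ℝ, E) I ∞ (κ p).symm (κ p).target := fun p =>
    (contMDiffOn_extChartAt_symm (I := I) p).comp e.symm.contDiff.contMDiff.contMDiffOn
      fun x hx => by
        rw [mem_preimage, extChartAt_target]
        exact ⟨hx, by simp [I.range_eq_univ]⟩
  let c : S → OpenPartialHomeomorph M E := fun p => (hψ.localInverseAt p).trans (κ p)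
  have c1 : ∀ p x, (c p).symm x = ψ ((κ p).symm x) := fun p x =>
    congrFun (hψ.localInverseAt_symm p) _
  have key : ∀ p s, ψ s ∈ (hψ.localInverseAt p).source →
      ContMDiffAt I I ∞ (hψ.localInverseAt p ∘ ψ) s := by
    intro p s hs
    obtain ⟨γ, g1, g2, g3⟩ := deck s _ (hψ.apply_localInverseAt_of_mem hs).symm
    refine (g1 s).congr_of_eventuallyEq ?_
    have h1 : γ s ∈ (hψ.localInverseAt p).target := g2 ▸ (hψ.localInverseAt p).map_source hs
    filter_upwards [g1.continuous.continuousAt.preimage_mem_nhds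
      ((hψ.localInverseAt p).open_target.mem_nhds h1)] with t ht
    have h2 := (hψ.localInverseAt p).right_inv ht
    rw [hψ.localInverseAt_symm] at h2
    rw [← h2]
    exact congrArg (hψ.localInverseAt p) (congrFun g3 t).symm
  obtain ⟨cM, mM, hc⟩ := exists_atlas c (fun m => by
      obtain ⟨p, rfl⟩ := sj m
      refine ⟨p, hψ.apply_self_mem_localInverseAt_source, ?_⟩
      change hψ.localInverseAt p (ψ p) ∈ (κ p).source
      rw [hψ.localInverseAt_apply_self]
      exact mem_chart_source K p)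
    (fun p p' x hx => by
      have h1 : x ∈ (κ p).target := hx.1.1
      have h2 : (c p).symm x ∈ (c p').source := hx.2
      rw [c1] at h2
      have h3 := ((κ1 p').contMDiffAt ((κ p').open_source.mem_nhds h2.2)).comp x
        ((key p' _ h2.1).comp x ((κ2 p).contMDiffAt ((κ p).open_target.mem_nhds h1)))
      rw [← contMDiffAt_iff_contDiffAt]
      refine h3.congr_of_eventuallyEq (Eventually.of_forall fun y => ?_)
      rw [Function.comp_apply, c1]
      rfl)
  refine ⟨cM, mM, fun s => ⟨⟨((κ s).trans (c s).symm).toPartialEquiv,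
    ((κ s).trans (c s).symm).open_source, ((κ s).trans (c s).symm).open_target,
    (hc s).2.comp ((κ1 s).mono inter_subset_left) fun x hx => hx.2,
    (κ2 s).comp ((hc s).1.mono fun x hx => hx.1) fun x hx => hx.2⟩, ?_, fun y hy => ?_⟩⟩
  · have h1 : s ∈ (κ s).source := mem_chart_source K s
    refine ⟨h1, (κ s).map_source h1, ?_⟩
    change (κ s).symm (κ s s) ∈ (hψ.localInverseAt s).target
    rw [(κ s).left_inv h1]
    exact hψ.self_mem_localInverseAt_target
  · change ψ y = (c s).symm (κ s y)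
    rw [c1, (κ s).left_inv hy.1]

theorem exists_quot (e : G ≃L[ℝ] E) (hψ : IsLocalHomeomorph ψ) (sj : Function.Surjective ψ)
    (q : V →L[ℝ] V →L[ℝ] ℝ) (hs : ∀ a b, q a b = q b a) {F : S → V}
    (hF : ContMDiff I 𝓘(ℝ, V) ∞ F)
    (pos : ∀ p (v : TangentSpace I p), v ≠ 0 → 0 < q (mvfderiv I F p v) (mvfderiv I F p v))
    (deck : ∀ p p', ψ p = ψ p' → ∃ γ : S → S, ContMDiff I I ∞ γ ∧ γ p = p' ∧ ψ ∘ γ = ψ ∧
      ∃ U : V →L[ℝ] V, (∀ a b, q (U a) (U b) = q a b) ∧ ∀ t, F (γ t) = U (F t)) :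
    ∃ (_ : ChartedSpace E M) (_ : IsManifold 𝓘(ℝ, E) ∞ M)
      (_ : RiemannianBundle fun p : M => TangentSpace 𝓘(ℝ, E) p)
      (_ : IsContMDiffRiemannianBundle 𝓘(ℝ, E) ∞ E fun p : M => TangentSpace 𝓘(ℝ, E) p),
      IsLocalDiffeomorph I 𝓘(ℝ, E) ∞ ψ ∧ ∀ p (v w : TangentSpace I p),
        inner ℝ (mfderiv I 𝓘(ℝ, E) ψ p v) (mfderiv I 𝓘(ℝ, E) ψ p w) =
          q (mvfderiv I F p v) (mvfderiv I F p w) := by
  obtain ⟨cM, mM, ld⟩ := exists_push e hψ sj fun p p' h =>
    (deck p p' h).imp fun γ h => ⟨h.1, h.2.1, h.2.2.1⟩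
  choose g hg using sj
  have cψ := hψ.continuous
  -- the pull back of the local form
  have k1 : ∀ s p, ψ p ∈ (ld s).localInverse.source → ∀ v w : TangentSpace I p,
      q (mvfderiv 𝓘(ℝ, E) (F ∘ (ld s).localInverse) (ψ p) (mfderiv I 𝓘(ℝ, E) ψ p v))
        (mvfderiv 𝓘(ℝ, E) (F ∘ (ld s).localInverse) (ψ p) (mfderiv I 𝓘(ℝ, E) ψ p w)) =
      q (mvfderiv I F p v) (mvfderiv I F p w) := by
    intro s p hp v w
    obtain ⟨γ, g1, g2, g3, U, u1, u2⟩ := deck p _ ((ld s).localInverse_right_inv hp).symm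
    have h1 : γ p ∈ (ld s).localInverse.target := g2 ▸ (ld s).localInverse.map_source hp
    have h2 : (F ∘ (ld s).localInverse) ∘ ψ =ᶠ[𝓝 p] U ∘ F := by
      filter_upwards [g1.continuous.continuousAt.preimage_mem_nhds
        ((ld s).localInverse.open_target.mem_nhds h1)] with t ht
      rw [Function.comp_apply, Function.comp_apply, ← congrFun g3 t, Function.comp_apply,
        (ld s).localInverse_left_inv ht, u2]
      rfl
    have d1 : MDifferentiableAt 𝓘(ℝ, E) 𝓘(ℝ, V) (F ∘ (ld s).localInverse) (ψ p) :=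
      (hF.mdifferentiable (by simp) _).comp _ ((ld s).localInverse.mdifferentiableAt (by simp) hp)
    have k : ∀ u, mvfderiv 𝓘(ℝ, E) (F ∘ (ld s).localInverse) (ψ p) (mfderiv I 𝓘(ℝ, E) ψ p u) =
        U (mvfderiv I F p u) := by
      intro u
      have h3 := mfderiv_comp_apply p d1 (ld.mdifferentiable (by simp) p) u
      have h4 := mfderiv_comp_apply p U.mdifferentiableAt (hF.mdifferentiable (by simp) p) u
      rw [h2.mfderiv_eq] at h3
      rw [U.mfderiv_eq] at h4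
      exact h3.symm.trans h4
    rw [k, k, u1]
  have k0 : ∀ m, m ∈ (ld (g m)).localInverse.source := fun m => by
    have h := (ld (g m)).localInverse_mem_source
    rwa [hg] at h
  have k2 : ∀ p (u : TangentSpace 𝓘(ℝ, E) (ψ p)), ∃ v, mfderiv I 𝓘(ℝ, E) ψ p v = u := fun p u =>
    (ld.mfderivToContinuousLinearEquiv (by simp) p).surjective u
  obtain ⟨rM, sM, hr⟩ := exists_metric (E := E) q hs (fun m => F ∘ (ld (g m)).localInverse)
    (fun m => (hF _).comp m ((ld (g m)).localInverse_contMDiffOn.contMDiffAt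
      ((ld (g m)).localInverse_open_source.mem_nhds (k0 m))))
    (fun m u hu => by
      obtain ⟨p, rfl⟩ : ∃ p, ψ p = m := ⟨_, hg m⟩
      obtain ⟨v, rfl⟩ := k2 p u
      rw [k1 _ p (k0 _)]
      exact pos p v fun h => hu (by rw [h, map_zero]))
    (fun m => by
      filter_upwards [(ld (g m)).localInverse_open_source.mem_nhds (k0 m)] with y hy u u'
      obtain ⟨p, rfl⟩ : ∃ p, ψ p = y := ⟨_, hg y⟩
      obtain ⟨v, rfl⟩ := k2 p u
      obtain ⟨w, rfl⟩ := k2 p u'
      rw [k1 _ p (k0 _), k1 _ p hy])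
  exact ⟨cM, mM, rM, sM, ld, fun p v w => (hr _ _ _).trans (k1 _ p (k0 _) v w)⟩

/-- the quotient by finitely many maps acting freely -/
theorem exists_top {S ι : Type} [TopologicalSpace S] [T2Space S] [Finite ι] (γ : ι → S → S)
    (hc : ∀ i, Continuous (γ i)) (he : Equivalence fun p q => ∃ i, γ i p = q)
    (hf : ∀ i, (∀ p, γ i p = p) ∨ ∀ p, γ i p ≠ p) :
    ∃ (M : Type) (_ : TopologicalSpace M) (ψ : S → M), T2Space M ∧ IsLocalHomeomorph ψ ∧
      Function.Surjective ψ ∧ ∀ p q, ψ p = ψ q ↔ ∃ i, γ i p = q := by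
  let s : Setoid S := ⟨_, he⟩
  have e : ∀ p q : S, Quotient.mk s p = Quotient.mk s q ↔ ∃ i, γ i p = q := fun p q => Quotient.eq
  have c : Continuous (Quotient.mk s) := continuous_quotient_mk'
  have o : IsOpenMap (Quotient.mk s) := by
    intro U hU
    rw [← isQuotientMap_quotient_mk'.isOpen_preimage]
    have h : Quotient.mk' ⁻¹' (Quotient.mk s '' U) = ⋃ i, γ i ⁻¹' U := by
      ext p
      simp only [mem_preimage, mem_image, mem_iUnion]
      constructor
      · rintro ⟨u, hu, h⟩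
        obtain ⟨i, rfl⟩ := (e _ _).1 h.symm
        exact ⟨i, hu⟩
      · rintro ⟨i, hi⟩
        exact ⟨_, hi, ((e _ _).2 ⟨i, rfl⟩).symm⟩
    rw [h]
    exact isOpen_iUnion fun i => hU.preimage (hc i)
  refine ⟨Quotient s, inferInstance, Quotient.mk s, ?_, ?_, Quotient.mk_surjective, e⟩
  · rw [t2Space_iff_of_isOpenQuotientMap ⟨Quotient.mk_surjective, c, o⟩]
    simp only [e, ofPred_exists]
    exact isClosed_iUnion_of_finite fun i =>
      isClosed_eq ((hc i).comp continuous_fst) continuous_snd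
  · refine isLocalHomeomorph_iff_isOpenEmbedding_restrict.2 fun p => ?_
    have h : ∀ i, ∃ U, IsOpen U ∧ p ∈ U ∧ ∀ a ∈ U, γ i a ∈ U → γ i a = a := by
      intro i
      rcases hf i with h | h
      · exact ⟨univ, isOpen_univ, trivial, fun a _ _ => h a⟩
      · obtain ⟨A, B, hA, hB, a, b, d⟩ := t2_separation (h p)
        exact ⟨γ i ⁻¹' A ∩ B, (hA.preimage (hc i)).inter hB, ⟨a, b⟩,
          fun x hx hx' => (disjoint_left.1 d hx.1 hx'.2).elim⟩
    choose U h1 h2 h3 using h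
    have hU : IsOpen (⋂ i, U i) := isOpen_iInter_of_finite h1
    refine ⟨_, hU.mem_nhds (mem_iInter.2 h2), .of_continuous_injective_isOpenMap
      (c.comp continuous_subtype_val) ?_ (o.comp hU.isOpenMap_subtype_val)⟩
    rintro ⟨a, ha⟩ ⟨b, hb⟩ h
    obtain ⟨i, rfl⟩ := (e _ _).1 h
    exact Subtype.ext (h3 i a (mem_iInter.1 ha i) (mem_iInter.1 hb i)).symm

end

end Vale.Agent.N211

end

section

/-! The round sphere and the eight quotients of the product of two-spheres exist. -/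

set_option maxSynthPendingDepth 3
set_option linter.unusedSectionVars false
set_option linter.unusedSimpArgs false

namespace Vale.Agent.N211

open scoped Manifold ContDiff Topology
open Bundle Filter Vale.Agent.P211Z Vale.Agent.P211Y

noncomputable section

variable {E : Type} [NormedAddCommGroup E] [NormedSpace ℝ E] [FiniteDimensional ℝ E]

theorem isoTo_of {M : Type} [TopologicalSpace M] [ChartedSpace E M]
    [RiemannianBundle fun p : M => TangentSpace 𝓘(ℝ, E) p]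
    {H : Type} [NormedAddCommGroup H] [NormedSpace ℝ H] {S : Type} [TopologicalSpace S]
    [ChartedSpace H S] {V : Type} [NormedAddCommGroup V] [InnerProductSpace ℝ V] {j : S → V}
    (hj : MDifferentiable 𝓘(ℝ, H) 𝓘(ℝ, V) j) {ψ : S → M} (hb : Function.Bijective ψ)
    (ld : IsLocalDiffeomorph 𝓘(ℝ, H) 𝓘(ℝ, E) ∞ ψ) {r : ℝ}
    (h : ∀ p (v w : TangentSpace 𝓘(ℝ, H) p), inner ℝ (mfderiv 𝓘(ℝ, H) 𝓘(ℝ, E) ψ p v)
      (mfderiv 𝓘(ℝ, H) 𝓘(ℝ, E) ψ p w) = r ^ 2 * pb H S j p v w) : IsoTo E M H j r := by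
  let Ψ := ld.diffeomorphOfBijective hb
  refine ⟨Ψ.symm, fun x v w => ?_⟩
  obtain ⟨p, rfl⟩ := hb.2 x
  obtain ⟨v, rfl⟩ := (ld.mfderivToContinuousLinearEquiv (by simp) p).surjective v
  obtain ⟨w, rfl⟩ := (ld.mfderivToContinuousLinearEquiv (by simp) p).surjective w
  have e : (j ∘ Ψ.symm) ∘ ψ = j := funext fun y => congrArg j (Ψ.symm_apply_apply y)
  have k : ∀ u, mvfderiv 𝓘(ℝ, E) (fun y => j (Ψ.symm y)) (ψ p) (mfderiv 𝓘(ℝ, H) 𝓘(ℝ, E) ψ p u) =
      mvfderiv 𝓘(ℝ, H) j p u := by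
    intro u
    have h1 := mfderiv_comp_apply p ((hj _).comp _ (Ψ.symm.mdifferentiable (by simp) (ψ p)))
      (ld.mdifferentiable (by simp) p) u
    have h2 : ∀ f : S → V, f = j → (mfderiv 𝓘(ℝ, H) 𝓘(ℝ, V) f p u : V) = mvfderiv 𝓘(ℝ, H) j p u := by
      rintro f rfl
      rfl
    exact h1.symm.trans (h2 _ e)
  refine (h p v w).trans ?_
  unfold pb
  rw [← k, ← k]
  rfl

theorem coe_smooth (n : ℕ) : ContMDiff 𝓘(ℝ, EuclideanSpace ℝ (Fin n))
    𝓘(ℝ, EuclideanSpace ℝ (Fin (n + 1))) ∞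
    (Subtype.val : Sph n → EuclideanSpace ℝ (Fin (n + 1))) := by
  have : Fact (Module.finrank ℝ (EuclideanSpace ℝ (Fin (n + 1))) = n + 1) :=
    ⟨finrank_euclideanSpace_fin⟩
  exact contMDiff_coe_sphere

theorem coe_imm (n : ℕ) (p : Sph n) (v : TangentSpace 𝓘(ℝ, EuclideanSpace ℝ (Fin n)) p)
    (h : mvfderiv 𝓘(ℝ, EuclideanSpace ℝ (Fin n))
      (Subtype.val : Sph n → EuclideanSpace ℝ (Fin (n + 1))) p v = 0) : v = 0 := by
  have : Fact (Module.finrank ℝ (EuclideanSpace ℝ (Fin (n + 1))) = n + 1) :=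
    ⟨finrank_euclideanSpace_fin⟩
  exact injective_mvfderiv_subtypeVal_sphere p (h.trans (map_zero _).symm)

theorem conn_sph {n : ℕ} (hn : 2 ≤ n) : ConnectedSpace (Sph n) := by
  have := P216.SCS.simplyConnected_sphere n hn
  infer_instance

/-- there is a closed connected Riemannian manifold with the property `P` -/
def Occ (E : Type) [NormedAddCommGroup E] [NormedSpace ℝ E]
    (P : ∀ (M : Type) [TopologicalSpace M] [ChartedSpace E M]
      [RiemannianBundle fun p : M => TangentSpace 𝓘(ℝ, E) p], Prop) : Prop :=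
  ∃ (M : Type) (_ : TopologicalSpace M) (_ : T2Space M) (_ : CompactSpace M) (_ : ConnectedSpace M)
    (_ : ChartedSpace E M) (_ : IsManifold 𝓘(ℝ, E) ∞ M)
    (_ : RiemannianBundle fun p : M => TangentSpace 𝓘(ℝ, E) p)
    (_ : IsContMDiffRiemannianBundle 𝓘(ℝ, E) ∞ E fun p : M => TangentSpace 𝓘(ℝ, E) p), P M

theorem occ_S4 (hdim : Module.finrank ℝ E = 4) {r : ℝ} (hr : 0 < r) :
    Occ E fun M _ _ _ => IsoS4 E M r := by
  obtain ⟨c, m, g, s, ld, h⟩ := exists_quot (E := E) (I := 𝓡 4) (S := Sph 4) (ψ := id)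
    (ContinuousLinearEquiv.ofFinrankEq (by simp [hdim])) (Homeomorph.refl _).isLocalHomeomorph
    Function.surjective_id (r ^ 2 • ipL _) (fun a b => congrArg (r ^ 2 * ·) (real_inner_comm b a))
    (coe_smooth 4)
    (fun p v hv => mul_pos (by positivity) (real_inner_self_pos.2 fun h => hv (coe_imm 4 p v h)))
    (fun p p' h => ⟨id, contMDiff_id, h, rfl, ContinuousLinearMap.id ℝ _, fun _ _ => rfl,
      fun _ => rfl⟩)
  exact ⟨Sph 4, inferInstance, inferInstance, inferInstance, conn_sph (by norm_num), c, m, g, s,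
    isoTo_of (md_coe 4) Function.bijective_id ld h⟩

/-- the reflection as a linear isometry -/
def rho : O3 where
  toLinearEquiv := LinearEquiv.ofInvolutive
    { toFun := refl
      map_add' := fun a b => by ext i; fin_cases i <;> simp [refl, add_comm]
      map_smul' := fun c a => by ext i; fin_cases i <;> simp [refl] } refl_refl
  norm_map' := norm_refl

theorem rho_apply (y : R3) : rho y = refl y := rfl

/-- the elements of the eight groups -/
def gens (k : Fin 8) : Fin 4 → Bool × O3 × O3 :=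
  ![fun _ => (false, 1, 1),
    ![(false, 1, 1), (false, m1, 1), (false, 1, 1), (false, 1, 1)],
    ![(false, 1, 1), (false, m1, m1), (false, 1, 1), (false, 1, 1)],
    ![(false, 1, 1), (false, m1, rho), (false, 1, 1), (false, 1, 1)],
    ![(false, 1, 1), (false, m1, m1 * rho), (false, 1, 1), (false, 1, 1)],
    ![(false, 1, 1), (false, m1, 1), (false, 1, m1), (false, m1, m1)],
    ![(false, 1, 1), (false, m1, rho), (false, 1, m1), (false, m1, m1 * rho)],
    ![(false, 1, 1), (true, 1, m1), (false, m1, m1), (true, m1, 1)]] k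

/-- the linear map given by an element -/
def ap (g : Bool × O3 × O3) : R3 × R3 →L[ℝ] R3 × R3 :=
  (g.2.1.toContinuousLinearEquiv.toContinuousLinearMap.prodMap
    g.2.2.toContinuousLinearEquiv.toContinuousLinearMap).comp
    (cond g.1 (ContinuousLinearEquiv.prodComm ℝ R3 R3).toContinuousLinearMap
      (ContinuousLinearMap.id ℝ _))

theorem ap_false (A B : O3) (x y : R3) : ap (false, A, B) (x, y) = (A x, B y) := rfl

theorem ap_true (A B : O3) (x y : R3) : ap (true, A, B) (x, y) = (A y, B x) := rfl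

theorem mem_orb (k : Fin 8) (x y : R3) (z : R3 × R3) :
    z ∈ orb refl k x y ↔ ∃ i, ap (gens k i) (x, y) = z := by
  fin_cases k <;>
    simp [orb, gens, Fin.exists_fin_succ, ap_false, ap_true, rho_apply, m1_apply, eq_comm] <;>
    tauto

theorem gens_free (k : Fin 8) (i : Fin 4) : (∀ z, ap (gens k i) z = z) ∨
    ∀ x y : R3, ‖x‖ = 1 → ‖y‖ = 1 → ap (gens k i) (x, y) ≠ (x, y) := by
  have a : ∀ B : O3, ∀ x y : R3, ‖x‖ = 1 → ‖y‖ = 1 → ap (false, m1, B) (x, y) ≠ (x, y) :=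
    fun B x y hx _ h => neg_ne_unit hx (congrArg Prod.fst h)
  have b : ∀ x y : R3, ‖x‖ = 1 → ‖y‖ = 1 → ap (false, 1, m1) (x, y) ≠ (x, y) :=
    fun x y _ hy h => neg_ne_unit hy (congrArg Prod.snd h)
  have c : ∀ x y : R3, ‖x‖ = 1 → ‖y‖ = 1 → ap (true, 1, m1) (x, y) ≠ (x, y) :=
    fun x y hx _ h => neg_ne_unit hx ((congrArg Prod.snd h).trans (congrArg Prod.fst h))
  have d : ∀ x y : R3, ‖x‖ = 1 → ‖y‖ = 1 → ap (true, m1, 1) (x, y) ≠ (x, y) :=
    fun x y _ hy h => neg_ne_unit hy ((congrArg Prod.fst h).trans (congrArg Prod.snd h))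
  have h : gens k i = (false, 1, 1) ∨ (∃ B, gens k i = (false, m1, B)) ∨ gens k i = (false, 1, m1) ∨
      gens k i = (true, 1, m1) ∨ gens k i = (true, m1, 1) := by
    fin_cases k <;> fin_cases i <;> simp [gens]
  rcases h with h | ⟨B, h⟩ | h | h | h <;> rw [h]
  exacts [Or.inl fun _ => rfl, Or.inr (a _), Or.inr b, Or.inr c, Or.inr d]

theorem orb_refl (k : Fin 8) (x y : R3) : (x, y) ∈ orb refl k x y := by
  fin_cases k <;> simp [orb]

theorem orb_symm (k : Fin 8) {x y a b : R3} (h : (a, b) ∈ orb refl k x y) :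
    (x, y) ∈ orb refl k a b := by
  fin_cases k <;>
    simp only [orb, Fin.reduceFinMk, Matrix.cons_val, Set.mem_insert_iff, Set.mem_singleton_iff,
      Prod.mk.injEq] at h ⊢
  · exact ⟨h.1.symm, h.2.symm⟩
  iterate 4 rcases h with ⟨rfl, rfl⟩ | ⟨rfl, rfl⟩ <;> simp [refl_neg, refl_refl]
  all_goals
    rcases h with ⟨rfl, rfl⟩ | ⟨rfl, rfl⟩ | ⟨rfl, rfl⟩ | ⟨rfl, rfl⟩ <;> simp [refl_neg, refl_refl]

theorem orb_trans (k : Fin 8) {x y a b c d : R3} (h : (a, b) ∈ orb refl k x y)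
    (h' : (c, d) ∈ orb refl k a b) : (c, d) ∈ orb refl k x y := by
  fin_cases k <;>
    simp only [orb, Fin.reduceFinMk, Matrix.cons_val, Set.mem_insert_iff, Set.mem_singleton_iff,
      Prod.mk.injEq] at h h' ⊢
  · exact ⟨h'.1.trans h.1, h'.2.trans h.2⟩
  iterate 4
    rcases h with ⟨rfl, rfl⟩ | ⟨rfl, rfl⟩ <;> rcases h' with ⟨rfl, rfl⟩ | ⟨rfl, rfl⟩ <;>
      simp [refl_neg, refl_refl]
  all_goals
    rcases h with ⟨rfl, rfl⟩ | ⟨rfl, rfl⟩ | ⟨rfl, rfl⟩ | ⟨rfl, rfl⟩ <;>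
      rcases h' with ⟨rfl, rfl⟩ | ⟨rfl, rfl⟩ | ⟨rfl, rfl⟩ | ⟨rfl, rfl⟩ <;>
      simp [refl_neg, refl_refl]

/-- a linear isometry acts on the sphere -/
def act (A : O3) (x : Sph 2) : Sph 2 :=
  ⟨A x, mem_sphere_zero_iff_norm.2 (nu A (norm_eq_of_mem_sphere x))⟩

theorem act_smooth (A : O3) : ContMDiff (𝓡 2) (𝓡 2) ∞ (act A) := by
  have : Fact (Module.finrank ℝ (EuclideanSpace ℝ (Fin (2 + 1))) = 2 + 1) :=
    ⟨finrank_euclideanSpace_fin⟩
  exact (A.contDiff.contMDiff.comp (coe_smooth 2)).codRestrict_sphere fun x => (act A x).2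

/-- the action on the product of spheres -/
def act2 (g : Bool × O3 × O3) (p : Sph 2 × Sph 2) : Sph 2 × Sph 2 :=
  cond g.1 (act g.2.1 p.2, act g.2.2 p.1) (act g.2.1 p.1, act g.2.2 p.2)

/-- the embedding of the product -/
def emb (p : Sph 2 × Sph 2) : R3 × R3 := (p.1, p.2)

theorem emb_inj : Function.Injective emb := fun _ _ h =>
  Prod.ext (Subtype.ext (congrArg Prod.fst h)) (Subtype.ext (congrArg Prod.snd h))

theorem emb_act (g : Bool × O3 × O3) (p : Sph 2 × Sph 2) : emb (act2 g p) = ap g (emb p) := by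
  obtain ⟨_ | _, A, B⟩ := g <;> rfl

theorem act2_smooth (g : Bool × O3 × O3) :
    ContMDiff ((𝓡 2).prod (𝓡 2)) ((𝓡 2).prod (𝓡 2)) ∞ (act2 g) := by
  obtain ⟨_ | _, A, B⟩ := g
  · exact ((act_smooth A).comp contMDiff_fst).prodMk ((act_smooth B).comp contMDiff_snd)
  · exact ((act_smooth A).comp contMDiff_snd).prodMk ((act_smooth B).comp contMDiff_fst)

/-- the product form -/
def q2 (r : ℝ) : R3 × R3 →L[ℝ] R3 × R3 →L[ℝ] ℝ :=
  r ^ 2 • (ipL R3).bilinearComp (ContinuousLinearMap.fst ℝ R3 R3) (ContinuousLinearMap.fst ℝ R3 R3) +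
    r ^ 2 • (ipL R3).bilinearComp (ContinuousLinearMap.snd ℝ R3 R3) (ContinuousLinearMap.snd ℝ R3 R3)

theorem q2_apply (r : ℝ) (a b : R3 × R3) :
    q2 r a b = r ^ 2 * inner ℝ a.1 b.1 + r ^ 2 * inner ℝ a.2 b.2 := rfl

theorem q2_ap (r : ℝ) (g : Bool × O3 × O3) (a b : R3 × R3) :
    q2 r (ap g a) (ap g b) = q2 r a b := by
  obtain ⟨_ | _, A, B⟩ := g
  · exact congrArg₂ (fun s t => r ^ 2 * s + r ^ 2 * t) (A.inner_map_map _ _) (B.inner_map_map _ _)
  · exact (congrArg₂ (fun s t => r ^ 2 * s + r ^ 2 * t) (A.inner_map_map _ _)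
      (B.inner_map_map _ _)).trans (add_comm _ _)

theorem emb_smooth : ContMDiff ((𝓡 2).prod (𝓡 2)) 𝓘(ℝ, R3 × R3) ∞ emb :=
  ((coe_smooth 2).comp contMDiff_fst).prodMk_space ((coe_smooth 2).comp contMDiff_snd)

theorem emb_deriv (p : Sph 2 × Sph 2) (v : TangentSpace ((𝓡 2).prod (𝓡 2)) p) :
    mvfderiv ((𝓡 2).prod (𝓡 2)) emb p v =
      (mvfderiv (𝓡 2) (Subtype.val : Sph 2 → R3) p.1 v.1,
        mvfderiv (𝓡 2) (Subtype.val : Sph 2 → R3) p.2 v.2) := by
  have d := (emb_smooth p).mdifferentiableAt (by simp)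
  have h1 := mfderiv_comp_apply p (ContinuousLinearMap.fst ℝ R3 R3).mdifferentiableAt d v
  have h2 := mfderiv_comp_apply p (ContinuousLinearMap.snd ℝ R3 R3).mdifferentiableAt d v
  have h3 := mfderiv_comp_apply p (md_coe 2 p.1)
    (mdifferentiableAt_fst (I := 𝓡 2) (I' := 𝓡 2) (x := p)) v
  have h4 := mfderiv_comp_apply p (md_coe 2 p.2)
    (mdifferentiableAt_snd (I := 𝓡 2) (I' := 𝓡 2) (x := p)) v
  rw [ContinuousLinearMap.mfderiv_eq] at h1 h2
  rw [mfderiv_fst] at h3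
  rw [mfderiv_snd] at h4
  exact Prod.ext (h1.symm.trans h3) (h2.symm.trans h4)

theorem occ_quot (hdim : Module.finrank ℝ E = 4) {r : ℝ} (hr : 0 < r) (k : Fin 8) :
    Occ E fun M _ _ _ => IsoQuot E M (EuclideanSpace ℝ (Fin 2)) (Subtype.val : Sph 2 → R3) r
      (orb refl k) := by
  have o : ∀ p q : Sph 2 × Sph 2, (∃ i, act2 (gens k i) p = q) ↔
      ((q.1 : R3), (q.2 : R3)) ∈ orb refl k p.1 p.2 := fun p q => by
    rw [mem_orb]
    exact exists_congr fun i => by rw [← emb_inj.eq_iff, emb_act]; rfl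
  have he : Equivalence fun p q => ∃ i, act2 (gens k i) p = q :=
    ⟨fun p => (o _ _).2 (orb_refl k _ _), fun h => (o _ _).2 (orb_symm k ((o _ _).1 h)),
      fun h h' => (o _ _).2 (orb_trans k ((o _ _).1 h) ((o _ _).1 h'))⟩
  obtain ⟨M, t, ψ, t2, l, sj, f⟩ := exists_top (fun i => act2 (gens k i))
    (fun i => (act2_smooth _).continuous) he fun i => (gens_free k i).imp
      (fun h p => emb_inj (by rw [emb_act, h])) fun h p e =>
        h _ _ (norm_eq_of_mem_sphere p.1) (norm_eq_of_mem_sphere p.2)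
          ((emb_act _ p).symm.trans (congrArg emb e))
  obtain ⟨c, m, g, s, ld, h⟩ := exists_quot (E := E) (I := (𝓡 2).prod (𝓡 2))
    (ContinuousLinearEquiv.ofFinrankEq (by simp [hdim])) l sj (q2 r)
    (fun a b => by rw [q2_apply, q2_apply, real_inner_comm a.1, real_inner_comm a.2]) emb_smooth
    (fun p v hv => by
      rw [emb_deriv, q2_apply]
      by_contra hn
      have h1 := mul_nonneg (sq_nonneg r)
        (real_inner_self_nonneg (x := mvfderiv (𝓡 2) (Subtype.val : Sph 2 → R3) p.1 v.1))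
      have h2 := mul_nonneg (sq_nonneg r)
        (real_inner_self_nonneg (x := mvfderiv (𝓡 2) (Subtype.val : Sph 2 → R3) p.2 v.2))
      have r2 : r ^ 2 ≠ 0 := by positivity
      refine hv (Prod.ext (coe_imm 2 p.1 v.1 (inner_self_eq_zero (𝕜 := ℝ).1 ?_))
        (coe_imm 2 p.2 v.2 (inner_self_eq_zero (𝕜 := ℝ).1 ?_))) <;>
        refine (mul_eq_zero.1 ?_).resolve_left r2 <;> linarith)
    (fun p p' h => by
      obtain ⟨i, hi⟩ := (f p p').1 h
      exact ⟨_, act2_smooth _, hi, funext fun t => ((f _ _).2 ⟨i, rfl⟩).symm, ap (gens k i),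
        q2_ap r _, emb_act _⟩)
  have := conn_sph (n := 2) le_rfl
  refine ⟨M, t, t2, sj.compactSpace l.continuous, sj.connectedSpace l.continuous, c, m, g, s, ψ, sj,
    ld, fun p v w => (h p v w).trans ?_, fun p q => (f p q).trans (o p q)⟩
  exact congrArg₂ (fun a b => q2 r a b) (emb_deriv p v) (emb_deriv p w)

end

end Vale.Agent.N211

end

section

/-! The projective spaces exist. -/

set_option maxSynthPendingDepth 3
set_option linter.unusedSectionVars false

namespace Vale.Agent.N211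

open scoped Manifold ContDiff Topology LinearAlgebra.Projectivization
open Bundle Filter Set Module Vale.Agent.P211Y RCLike

noncomputable section

variable {E : Type} [NormedAddCommGroup E] [NormedSpace ℝ E] [FiniteDimensional ℝ E]
  (k : Type) [RCLike k] {V : Type} [NormedAddCommGroup V] [InnerProductSpace k V]
  [NormedSpace ℝ V] [IsScalarTower ℝ k V] [FiniteDimensional k V]

theorem exists_LR (hd : finrank ℝ V = finrank ℝ E + finrank ℝ k) {u : V} (hu : ‖u‖ = 1) :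
    ∃ (L : V →L[ℝ] E) (R : E →L[ℝ] V), (∀ w, L (R w) = w) ∧ (∀ w, inner k u (R w) = 0) ∧
      ∀ v, R (L v) = hor k u v := by
  have : FiniteDimensional ℝ V := Module.Finite.trans k V
  let φ : V →ₗ[ℝ] k :=
    { toFun := fun v => inner k u v
      map_add' := inner_add_right _
      map_smul' := fun c v => by rw [inner_rr, RingHom.id_apply, real_smul_eq_coe_mul] }
  have sj : LinearMap.range φ = ⊤ := LinearMap.range_eq_top.2 fun a =>
    ⟨a • u, by simp [φ, inner_smul_right, hu]⟩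
  have h1 := φ.finrank_range_add_finrank_ker
  rw [sj, finrank_top, hd, add_comm] at h1
  let e : LinearMap.ker φ ≃ₗ[ℝ] E := LinearEquiv.ofFinrankEq _ _ (Nat.add_right_cancel h1)
  let H : V →ₗ[ℝ] LinearMap.ker φ :=
    { toFun := fun v => ⟨hor k u v, inner_hor k hu v⟩
      map_add' := fun a b => Subtype.ext (by
        simp only [hor, inner_add_right, add_smul, Submodule.coe_add]; abel)
      map_smul' := fun c v => Subtype.ext (by
        simp only [hor, inner_rr, mul_smul, Submodule.coe_smul, RingHom.id_apply, smul_sub,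
          ← real_smul_eq_coe_smul (K := k)]) }
  refine ⟨(e.toLinearMap ∘ₗ H).toContinuousLinearMap,
    ((LinearMap.ker φ).subtype ∘ₗ e.symm.toLinearMap).toContinuousLinearMap, fun w => ?_,
    fun w => (e.symm w).2, fun v => ?_⟩
  · exact (congrArg e (Subtype.ext (hor_of k (e.symm w).2))).trans (e.apply_symm_apply w)
  · exact congrArg Subtype.val (e.symm_apply_apply (H v))

/-- the affine representative of a projector -/
def sec (u : V) (F : V →L[k] V) : V := (inner k u (F u))⁻¹ • F u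

theorem pr_app (z u : V) : pr k z u = (((‖z‖ ^ 2)⁻¹ : ℝ) * inner k z u : k) • z := by
  rw [mul_smul, ← real_smul_eq_coe_smul]
  rfl

theorem pr_ne {u z : V} (hz : z ≠ 0) : inner k u (pr k z u) ≠ 0 ↔ inner k u z ≠ 0 := by
  rw [pr_app, inner_smul_right]
  simp [hz, inner_eq_zero_symm (x := z)]

theorem sec_pr {u z : V} (h : inner k u z ≠ 0) : sec k u (pr k z) = (inner k u z)⁻¹ • z := by
  have hz : (‖z‖ : k) ≠ 0 := by
    rw [ne_eq, ofReal_eq_zero, norm_eq_zero]
    rintro rfl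
    simp at h
  have h' : inner k z u ≠ 0 := fun e => h (inner_eq_zero_symm.1 e)
  rw [sec, pr_app, inner_smul_right, smul_smul]
  congr 1
  push_cast
  field_simp

theorem sec_smooth {u : V} {F : V →L[k] V} (h : inner k u (F u) ≠ 0) :
    ContDiffAt ℝ ∞ (sec k u) F := by
  have a := ((ContinuousLinearMap.apply k V u).contDiff (n := ∞)).contDiffAt (x := F)
  have b := ((innerSL k u).contDiff (n := ∞)).contDiffAt.comp F a
  exact ((b.inv h).smul a).restrict_scalars ℝ

variable (V) in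
/-- the projectors onto lines -/
abbrev PM : Type := {F : V →L[k] V // ∃ z, z ≠ 0 ∧ F = pr k z}

theorem open_src (u : V) : IsOpen {F : PM k V | inner k u (F.1 u) ≠ 0} :=
  isOpen_ne_fun (by fun_prop) continuous_const

theorem pr_sec {u : V} {F : PM k V} (h : inner k u (F.1 u) ≠ 0) :
    inner k u (sec k u F.1) = 1 ∧ pr k (sec k u F.1) = F.1 := by
  obtain ⟨_, z, hz, rfl⟩ := F
  have h1 := (pr_ne k hz).1 h
  rw [sec_pr k h1, inner_smul_right, inv_mul_cancel₀ h1]
  exact ⟨rfl, pr_smul k (inv_ne_zero h1) z⟩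

theorem exists_ch (hd : finrank ℝ V = finrank ℝ E + finrank ℝ k) {u : V} (hu : ‖u‖ = 1) :
    ∃ (c : OpenPartialHomeomorph (PM k V) E) (L : V →L[ℝ] E) (R : E →L[ℝ] V),
      c.source = {F | inner k u (F.1 u) ≠ 0} ∧ c.target = univ ∧ (∀ F, c F = L (sec k u F.1)) ∧
      L u = 0 ∧ ∀ w, inner k u (R w) = 0 ∧ u + R w ≠ 0 ∧ (c.symm w).1 = pr k (u + R w) := by
  obtain ⟨L, R, h1, h2, h3⟩ := exists_LR k hd hu
  have i1 : ∀ w, inner k u (u + R w) = 1 := fun w => by simp [inner_add_right, h2, hu]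
  have i0 : ∀ w, u + R w ≠ 0 := fun w h => by simpa [h] using i1 w
  have h4 : L u = 0 := by rw [← h1 (L u), h3, hor]; simp [hu]
  refine ⟨⟨⟨⟨fun F => L (sec k u F.1), fun w => ⟨pr k (u + R w), _, i0 w, rfl⟩,
    {F | inner k u (F.1 u) ≠ 0}, univ, fun _ _ => trivial,
    fun w _ => (pr_ne k (i0 w)).2 (by rw [i1]; exact one_ne_zero), fun F hF => Subtype.ext ?_,
    fun w _ => ?_⟩, fun F hF => ?_, fun w _ => ?_⟩, open_src k u, isOpen_univ⟩, L, R, rfl, rfl,
    fun _ => rfl, h4, fun w => ⟨h2 w, i0 w, rfl⟩⟩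
  · obtain ⟨a, b⟩ := pr_sec k hF
    simp only [h3, hor, a, one_smul, add_sub_cancel, b]
  · rw [sec_pr k (by rw [i1]; exact one_ne_zero), i1, inv_one, one_smul, map_add, h1, h4, zero_add]
  · exact (L.continuous.continuousAt.comp ((sec_smooth k hF).continuousAt.comp
      continuous_subtype_val.continuousAt)).continuousWithinAt
  · refine (Topology.IsInducing.subtypeVal.continuousAt_iff.2 ?_).continuousWithinAt
    exact (pr_smooth k (i0 w)).continuousAt.comp (f := fun w => u + R w) (by fun_prop)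

theorem exists_unit (F : PM k V) : ∃ u : V, ‖u‖ = 1 ∧ F.1 = pr k u := by
  obtain ⟨_, z, hz, rfl⟩ := F
  have h : ((‖z‖⁻¹ : ℝ) : k) ≠ 0 := by simpa using hz
  exact ⟨((‖z‖⁻¹ : ℝ) : k) • z, by simp [norm_smul, hz], (pr_smul k h z).symm⟩

theorem self_ne {u : V} (hu : ‖u‖ = 1) : inner k u (pr k u u) ≠ 0 :=
  (pr_ne k (by rintro rfl; simp at hu)).2 (by simp [hu])

theorem pr_form {z : V} (hz : z ≠ 0) : ∃ L : V →L[ℝ] (V →L[k] V), HasFDerivAt (pr k) L z ∧
    ∀ v w, tq k (L v) (L w) = 2 * fs k z v w := by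
  have n0 : ‖z‖ ≠ 0 := norm_ne_zero_iff.2 hz
  have hu : ‖‖z‖⁻¹ • z‖ = 1 := by simp [norm_smul, n0]
  obtain ⟨L, h1, h2⟩ := pr_deriv k hu
  have h3 := h1.comp z ((hasFDerivAt_id z).const_smul ‖z‖⁻¹)
  have e : pr k ∘ (‖z‖⁻¹ • (id : V → V)) = pr k := funext fun y => by
    rw [Function.comp_apply, Pi.smul_apply, real_smul_eq_coe_smul (K := k)]
    exact pr_smul k (by simpa using hz) y
  refine ⟨_, e ▸ h3, fun v w => ?_⟩
  simp only [ContinuousLinearMap.comp_apply, h2]
  rw [tq_tan k hu (inner_hor k hu _) (inner_hor k hu _), ← fs_hor k hu, fs, fs, hu]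
  simp only [smul_apply, ContinuousLinearMap.id_apply, inner_rl, inner_rr]
  congr 1
  rw [div_eq_inv_mul _ (‖z‖ ^ 4), ← re_ofReal_mul, one_pow, div_one]
  congr 1
  push_cast
  ring

theorem pr_mk {z : V} (hz : z ≠ 0) : pr k (Projectivization.mk k z hz).rep = pr k z := by
  obtain ⟨a, ha⟩ := Projectivization.exists_smul_eq_mk_rep k z hz
  rw [← ha]
  exact pr_smul k a.ne_zero z

theorem occ_lines (hd : finrank ℝ V = finrank ℝ E + finrank ℝ k) (h2 : 1 < Module.rank ℝ V)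
    {c : ℝ} (hc : 0 < c) : Occ E fun M _ _ _ => IsoLines E M k V c := by
  classical
  have : FiniteDimensional ℝ V := Module.Finite.trans k V
  have : ProperSpace V := FiniteDimensional.proper_real V
  choose ch L R c1 c2 c3 c4 c5 using fun u : Metric.sphere (0 : V) 1 =>
    exists_ch (E := E) k hd (norm_eq_of_mem_sphere u)
  have src : ∀ F : PM k V, ∃ u : Metric.sphere (0 : V) 1, F.1 = pr k u.1 ∧ F ∈ (ch u).source := by
    intro F
    obtain ⟨u, hu, h⟩ := exists_unit k F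
    refine ⟨⟨u, mem_sphere_zero_iff_norm.2 hu⟩, h, ?_⟩
    rw [c1, mem_ofPred_eq, h]
    exact self_ne k hu
  have sp : ∀ u w, ContDiffAt ℝ ∞ (fun w => pr k (u.1 + R u w)) w := fun u w =>
    (pr_smooth k (c5 u w).2.1).comp (f := fun w => u.1 + R u w) w (by fun_prop)
  obtain ⟨cM, mM, hch⟩ := exists_atlas ch (fun m => (src m).imp fun _ h => h.2) fun i j x hx => by
    have h : (ch i).symm x ∈ (ch j).source := hx.2
    rw [c1, mem_ofPred_eq, (c5 i x).2.2] at h
    have e : ch j ∘ (ch i).symm = L j ∘ sec k j.1 ∘ fun w => pr k (i.1 + R i w) :=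
      funext fun w => by simp only [Function.comp_apply, c3, (c5 i w).2.2]
    rw [e]
    exact (L j).contDiff.contDiffAt.comp x ((sec_smooth k h).comp x (sp i x))
  have sv : ContMDiff 𝓘(ℝ, E) 𝓘(ℝ, V →L[k] V) ∞ (Subtype.val : PM k V → _) := fun m => by
    obtain ⟨u, -, hu⟩ := src m
    refine ((sp u _).contMDiffAt.comp m
      ((hch u).1.contMDiffAt ((ch u).open_source.mem_nhds hu))).congr_of_eventuallyEq ?_
    filter_upwards [(ch u).open_source.mem_nhds hu] with y hy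
    rw [Function.comp_apply, ← (c5 u _).2.2, (ch u).left_inv hy]
  let φ : ℙ k V → PM k V := fun l => ⟨pr k l.rep, _, l.rep_nonzero, rfl⟩
  have bij : Function.Bijective φ := by
    refine ⟨fun a b h => ?_, fun ⟨_, z, hz, rfl⟩ => ⟨_, Subtype.ext (pr_mk k hz)⟩⟩
    have h1 : pr k a.rep a.rep = pr k b.rep a.rep := congrArg (fun F : PM k V => F.1 a.rep) h
    have h0 : (‖a.rep‖ : k) ≠ 0 := by simpa using a.rep_nonzero
    rw [pr_app, pr_app, inner_self_eq_norm_sq_to_K] at h1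
    push_cast at h1
    rw [inv_mul_cancel₀ (pow_ne_zero 2 h0), one_smul] at h1
    rw [← a.mk_rep, ← b.mk_rep]
    exact (Projectivization.mk_eq_mk_iff' k _ _ _ _).2 ⟨_, h1.symm⟩
  have cs := isConnected_iff_connectedSpace.1 (isConnected_sphere h2 (0 : V) zero_le_one)
  have n0 : ∀ u : Metric.sphere (0 : V) 1, u.1 ≠ 0 := ne_zero_of_mem_unit_sphere
  obtain ⟨u0⟩ : Nonempty (Metric.sphere (0 : V) 1) := inferInstance
  let P : V → PM k V := fun z =>
    if h : z ≠ 0 then φ (Projectivization.mk k z h) else φ (Projectivization.mk k _ (n0 u0))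
  have p0 : ∀ z (hz : z ≠ 0), P z = φ (Projectivization.mk k z hz) := fun z hz => dif_pos hz
  have p1 : ∀ z, z ≠ 0 → (P z).1 = pr k z := fun z hz => by rw [p0 z hz]; exact pr_mk k hz
  have p2 : ∀ z, z ≠ 0 → Subtype.val ∘ P =ᶠ[𝓝 z] pr k := fun z hz =>
    (eventually_ne_nhds hz).mono p1
  have p3 : ∀ z, z ≠ 0 → ContinuousAt P z := fun z hz =>
    Topology.IsInducing.subtypeVal.continuousAt_iff.2
      ((pr_smooth k hz).continuousAt.congr (p2 z hz).symm)
  have p4 : ∀ z, z ≠ 0 → ContMDiffAt 𝓘(ℝ, V) 𝓘(ℝ, E) ∞ P z := fun z hz => by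
    obtain ⟨u, -, hu⟩ := src (P z)
    have h := hu
    rw [c1, mem_ofPred_eq, p1 z hz] at h
    have a := ((L u).contDiff.contDiffAt.comp z ((sec_smooth k h).comp z (pr_smooth k hz)))
    refine (((hch u).2.contMDiffAt (by rw [c2]; exact univ_mem)).comp z
      a.contMDiffAt).congr_of_eventuallyEq ?_
    filter_upwards [(p3 z hz).preimage_mem_nhds ((ch u).open_source.mem_nhds hu),
      eventually_ne_nhds hz] with y hy y0
    simp only [Function.comp_apply]
    rw [← p1 y y0, ← c3, (ch u).left_inv hy]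
  have p5 : ∀ z, z ≠ 0 → ∀ v w : V,
      tq k (mvfderiv 𝓘(ℝ, E) Subtype.val (P z) (mfderiv 𝓘(ℝ, V) 𝓘(ℝ, E) P z v))
        (mvfderiv 𝓘(ℝ, E) Subtype.val (P z) (mfderiv 𝓘(ℝ, V) 𝓘(ℝ, E) P z w)) =
      2 * fs k z v w := fun z hz v w => by
    obtain ⟨A, a1, a2⟩ := pr_form k hz
    have h : ∀ v, mvfderiv 𝓘(ℝ, E) Subtype.val (P z) (mfderiv 𝓘(ℝ, V) 𝓘(ℝ, E) P z v) = A v := by
      intro v
      have h3 := mfderiv_comp_apply z ((sv _).mdifferentiableAt (by simp))
        ((p4 z hz).mdifferentiableAt (by simp)) v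
      rw [(p2 z hz).mfderiv_eq, mfderiv_eq_fderiv, a1.fderiv] at h3
      exact h3.symm
    exact (congrArg₂ (fun a b => tq k a b) (h v) (h w)).trans (a2 v w)
  have s1 : ∀ u, ∀ m ∈ (ch u).source,
      ContMDiffAt 𝓘(ℝ, E) 𝓘(ℝ, V) ∞ ((fun w => u.1 + R u w) ∘ ch u) m ∧
      ∀ᶠ y in 𝓝 m, u.1 + R u (ch u y) ≠ 0 ∧ P (u.1 + R u (ch u y)) = y := fun u m hu => by
    refine ⟨(ContDiffAt.contMDiffAt (by fun_prop)).comp m
      ((hch u).1.contMDiffAt ((ch u).open_source.mem_nhds hu)), ?_⟩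
    filter_upwards [(ch u).open_source.mem_nhds hu] with y hy
    refine ⟨(c5 u _).2.1, Subtype.ext ?_⟩
    rw [p1 _ (c5 u _).2.1, ← (c5 u _).2.2, (ch u).left_inv hy]
  obtain ⟨rM, sM, hr⟩ := exists_metric (E := E) ((c ^ 2 / 2) • tq k)
    (fun a b => congrArg (c ^ 2 / 2 * ·) (tq_symm k a b)) (fun _ => (Subtype.val : PM k V → _))
    sv (fun m v hv => by
      obtain ⟨u, h1, hu⟩ := src m
      have u1 := norm_eq_of_mem_sphere u
      obtain ⟨a, b⟩ := s1 u m hu
      have e0 : u.1 + R u (ch u m) = u.1 := by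
        rw [c3, h1, sec_pr k (by simp [u1])]
        simp [u1, c4]
      obtain rfl : P u.1 = m := e0 ▸ b.self_of_nhds.2
      have d := ((hch u).1.contMDiffAt ((ch u).open_source.mem_nhds hu)).mdifferentiableAt (by simp)
      have h3 := mfderiv_comp_apply_of_eq (P u.1) ((p4 _ (n0 u)).mdifferentiableAt (by simp))
        (a.mdifferentiableAt (by simp)) e0 v
      have h4 : P ∘ (fun w => u.1 + R u w) ∘ ch u =ᶠ[𝓝 (P u.1)] id := b.mono fun y hy => hy.2
      have h5 := P211W.mv_comp ((R u).hasFDerivAt.const_add u.1) d v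
      rw [h4.mfderiv_eq, mfderiv_id] at h3
      obtain ⟨w, h6⟩ : ∃ w, v = mfderiv 𝓘(ℝ, V) 𝓘(ℝ, E) P u.1 (R u w) :=
        ⟨_, h3.trans (congrArg _ h5)⟩
      have h7 : R u w ≠ 0 := fun h => hv (by rw [h6, h]; exact map_zero _)
      change 0 < c ^ 2 / 2 * tq k _ _
      rw [h6, p5 _ (n0 u), fs_hor k u1, hor_of k (c5 u w).1, inner_self_eq_norm_sq]
      positivity)
    (fun m => Eventually.of_forall fun _ _ _ => rfl)
  have sj : Function.Surjective fun u : Metric.sphere (0 : V) 1 => P u.1 := fun m =>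
    (src m).imp fun u h => Subtype.ext ((p1 _ (n0 u)).trans h.1.symm)
  have ct : Continuous fun u : Metric.sphere (0 : V) 1 => P u.1 :=
    continuous_iff_continuousAt.2 fun u => (p3 _ (n0 u)).comp continuous_subtype_val.continuousAt
  refine ⟨PM k V, inferInstance, inferInstance, sj.compactSpace ct, sj.connectedSpace ct, cM, mM,
    rM, sM, Equiv.ofBijective φ bij, P, fun z hz => ⟨p0 z hz, p4 z hz, fun v w => ?_⟩, fun m => ?_⟩
  · refine (hr _ _ _).trans ?_
    change c ^ 2 / 2 * tq k _ _ = _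
    rw [p5 z hz]
    ring
  · obtain ⟨u, -, hu⟩ := src m
    exact ⟨_, s1 u m hu⟩

end

end Vale.Agent.N211

end

section

/-! The classification of closed Einstein four-manifolds of nonnegative curvature. -/

set_option maxSynthPendingDepth 3

namespace Vale.Agent.N211

open scoped Manifold ContDiff
open Bundle Vale.Agent.P211.NN Vale.Agent.P211Z Vale.Agent.P211Y

variable {E : Type} [NormedAddCommGroup E] [NormedSpace ℝ E] [FiniteDimensional ℝ E]

theorem occ_model (hdim : Module.finrank ℝ E = 4) {lam : ℝ} (hlam : 0 < lam) (i : Fin 3 ⊕ Fin 8) :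
    Occ E fun M _ _ _ => IsoModel E M lam i := by
  rcases i with i | k
  · fin_cases i
    · exact occ_S4 hdim (by positivity)
    · exact occ_lines ℝ (V := EuclideanSpace ℝ (Fin (4 + 1))) (by simp [hdim])
        (by rw [← Module.finrank_eq_rank]; simp) (by positivity)
    · have h : Module.finrank ℝ (EuclideanSpace ℂ (Fin (2 + 1))) = 6 := by
        rw [← Module.finrank_mul_finrank ℝ ℂ, finrank_euclideanSpace_fin,
          Complex.finrank_real_complex]
      exact occ_lines ℂ (V := EuclideanSpace ℂ (Fin (2 + 1)))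
        (by rw [h, hdim, Complex.finrank_real_complex])
        (by rw [← Module.finrank_eq_rank, h]; simp) (by positivity)
  · exact occ_quot hdim (by positivity) k

theorem final (hdim : Module.finrank ℝ E = 4)
    (M : Type) [TopologicalSpace M] [T2Space M] [CompactSpace M] [ConnectedSpace M]
    [ChartedSpace E M] [IsManifold 𝓘(ℝ, E) ∞ M]
    [RiemannianBundle fun p : M => TangentSpace 𝓘(ℝ, E) p]
    [IsContMDiffRiemannianBundle 𝓘(ℝ, E) ∞ E fun p : M => TangentSpace 𝓘(ℝ, E) p] :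
    (∃ cov : CovariantDerivative 𝓘(ℝ, E) E (TangentSpace 𝓘(ℝ, E) : M → Type), IsLeviCivita cov) ∧
    (∃ (N : Type) (_ : TopologicalSpace N) (_ : ChartedSpace E N) (_ : IsManifold 𝓘(ℝ, E) ∞ N)
      (_ : RiemannianBundle fun p : N => TangentSpace 𝓘(ℝ, E) p) (φ : N → M), T2Space N ∧
      (IsContMDiffRiemannianBundle 𝓘(ℝ, E) ∞ E fun p : N => TangentSpace 𝓘(ℝ, E) p) ∧
      SimplyConnectedSpace N ∧ IsRiemannianCovering E φ) ∧
    ∀ cov : CovariantDerivative 𝓘(ℝ, E) E (TangentSpace 𝓘(ℝ, E) : M → Type), IsLeviCivita cov →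
      ∀ lam : ℝ, 0 < lam →
      (∀ (N : Type) [TopologicalSpace N] [T2Space N] [ChartedSpace E N] [IsManifold 𝓘(ℝ, E) ∞ N]
        [RiemannianBundle fun p : N => TangentSpace 𝓘(ℝ, E) p]
        [IsContMDiffRiemannianBundle 𝓘(ℝ, E) ∞ E fun p : N => TangentSpace 𝓘(ℝ, E) p]
        (φ : N → M), SimplyConnectedSpace N → IsRiemannianCovering E φ →
          (RicciEq cov (fun _ => lam) ∧ SecNonneg cov ↔
            IsoS4 E N √(3 / lam) ∨ IsoProj E N ℂ 2 √(6 / lam) ∨ IsoS2S2 E N √(1 / lam))) ∧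
      (RicciEq cov (fun _ => lam) ∧ SecNonneg cov ↔ ∃ i, IsoModel E M lam i) ∧
      ∀ i, IsoModel E M lam i →
        (∀ j, IsoModel E M lam j → j = i) ∧ ∀ p : M, PosAt cov p ↔ i.isLeft := by
  refine ⟨P211W.exists_lc.imp fun _ => lc_iff.1, ?_, fun cov hc lam hlam => ?_⟩
  · obtain ⟨N, _, c, m, g, s, -, φ, h⟩ := exists_universal (E := E) (M := M)
    exact ⟨N, inferInstance, c, m, g, φ, inferInstance, s, h⟩
  obtain ⟨mM, rfl, rM⟩ := P211W.with_metric (E := E) (N := M)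
  have : IsRiemannianManifold 𝓘(ℝ, E) M := ⟨rM⟩
  refine ⟨fun N _ _ _ _ _ _ φ hN hφ => ?_, ⟨fun h => model_exists hdim hlam hc h.1 h.2,
    fun ⟨i, h⟩ => (model_curv hdim hlam hc h).1⟩,
    fun i h => ⟨fun j h' => model_unique hdim hlam hc h' h, (model_curv hdim hlam hc h).2⟩⟩
  obtain ⟨mN, rfl, rN⟩ := P211W.with_metric (E := E) (N := N)
  have : IsRiemannianManifold 𝓘(ℝ, E) N := ⟨rN⟩
  exact cover_iff hdim hlam hc hN hφ

end Vale.Agent.N211

end
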