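import Vale.Agent.N211.Final

open scoped Manifold ContDiff
open Bundle Vale.Agent.P211.NN Vale.Agent.P211Z Vale.Agent.P211Y Vale.Agent.N211

/-- Let `(M, g)` be a closed connected Riemannian four-manifold. (0) It has a Levi-Civita
connection and a universal Riemannian cover. Let `lam > 0`. (1) `Ric = lam g` and `K ≥ 0` hold if
and only if the universal Riemannian cover is isometric to the round sphere of radius
`√(3 / lam)`, to the complex projective plane with `6 / lam` times the Fubini-Study metric, or to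
the product of two round two-spheres of radius `√(1 / lam)`. (2) They hold if and only if `M` is
isometric to one of eleven models; the model is unique, and `K > 0` at a point `p` if and only if
it is one of the first three. (3) Each model occurs. -/
theorem Vale.Agent.N211.oldElevenModels
    {E : Type} [NormedAddCommGroup E] [NormedSpace ℝ E] [FiniteDimensional ℝ E]
    (hdim : Module.finrank ℝ E = 4) :
    (∀ (M : Type) [TopologicalSpace M] [T2Space M] [CompactSpace M] [ConnectedSpace M]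
      [ChartedSpace E M] [IsManifold 𝓘(ℝ, E) ∞ M]
      [RiemannianBundle fun p : M => TangentSpace 𝓘(ℝ, E) p]
      [IsContMDiffRiemannianBundle 𝓘(ℝ, E) ∞ E fun p : M => TangentSpace 𝓘(ℝ, E) p],
      (∃ cov : CovariantDerivative 𝓘(ℝ, E) E (TangentSpace 𝓘(ℝ, E) : M → Type), IsLeviCivita cov) ∧
      (∃ (N : Type) (_ : TopologicalSpace N) (_ : ChartedSpace E N) (_ : IsManifold 𝓘(ℝ, E) ∞ N)
        (_ : RiemannianBundle fun p : N => TangentSpace 𝓘(ℝ, E) p) (φ : N → M), T2Space N ∧
        (IsContMDiffRiemannianBundle 𝓘(ℝ, E) ∞ E fun p : N => TangentSpace 𝓘(ℝ, E) p) ∧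
        SimplyConnectedSpace N ∧ IsRiemannianCovering E φ) ∧
      ∀ cov : CovariantDerivative 𝓘(ℝ, E) E (TangentSpace 𝓘(ℝ, E) : M → Type), IsLeviCivita cov →
        ∀ lam : ℝ, 0 < lam →
        (∀ (N : Type) [TopologicalSpace N] [T2Space N] [ChartedSpace E N] [IsManifold 𝓘(ℝ, E) ∞ N]
          [RiemannianBundle fun p : N => TangentSpace 𝓘(ℝ, E) p]
          [IsContMDiffRiemannianBundle 𝓘(ℝ, E) ∞ E fun p : N => TangentSpace 𝓘(ℝ, E) p]
          (φ : N → M), SimplyConnectedSpace N → IsRiemannianCovering E φ →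
            (RicciEq cov (fun _ => lam) ∧ SecNonneg cov ↔
              IsoS4 E N √(3 / lam) ∨ IsoProj E N ℂ 2 √(6 / lam) ∨ IsoS2S2 E N √(1 / lam))) ∧
        (RicciEq cov (fun _ => lam) ∧ SecNonneg cov ↔ ∃ i, IsoModel E M lam i) ∧
        ∀ i, IsoModel E M lam i →
          (∀ j, IsoModel E M lam j → j = i) ∧ ∀ p : M, PosAt cov p ↔ i.isLeft) ∧
    ∀ lam : ℝ, 0 < lam → ∀ i, ∃ (M : Type) (_ : TopologicalSpace M) (_ : ChartedSpace E M)
      (_ : IsManifold 𝓘(ℝ, E) ∞ M) (_ : RiemannianBundle fun p : M => TangentSpace 𝓘(ℝ, E) p),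
      T2Space M ∧ CompactSpace M ∧ ConnectedSpace M ∧
      (IsContMDiffRiemannianBundle 𝓘(ℝ, E) ∞ E fun p : M => TangentSpace 𝓘(ℝ, E) p) ∧
      IsoModel E M lam i :=
  ⟨fun M _ _ _ _ _ _ _ _ => final hdim M, fun _ h i =>
    let ⟨M, t, a, b, c, d, e, f, g, m⟩ := occ_model hdim h i
    ⟨M, t, d, e, f, a, b, c, g, m⟩⟩
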